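import Vale.Agent.Lib.P302.Volume
import Vale.Agent.Results.P302.A00Gap37585Over28674
import Vale.Agent.Results.P302.A00Gap37585Inline

/-!
# P302: further facts on the 205-item instance of the hand-in A00Gap37585Over28674
(an explicit packing into 70 bins, the feasible LP solution itself, the volume bound)
-/

namespace Vale.Agent.Lib.P302.Best37585

open Vale.Agent.Lib.P302 Vale.Agent.Results.P302.A00Gap37585Over28674

/-- the instance -/
def inst : List ℚ := sizes LL items

/-- bin numbers of the 205 items in a packing into 70 bins -/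
def assign : List ℕ := [0, 1, 2, 3, 4, 5, 6, 7, 8, 9, 10, 11, 12, 13, 14, 15, 16, 17, 18, 19, 20, 21, 22, 23, 24, 25, 26, 27, 28, 29, 30, 31, 32, 33, 34, 35, 36, 37, 38, 39, 40, 41, 42, 43, 44, 45, 46, 47, 48, 49, 50, 51, 52, 53, 54, 55, 56, 57, 58, 59, 60, 61, 62, 63, 64, 63, 64, 65, 65, 66, 66, 67, 67, 66, 67, 68, 68, 68, 0, 1, 3, 1, 0, 3, 4, 5, 5, 4, 10, 7, 7, 2, 2, 8, 9, 11, 9, 8, 11, 12, 13, 13, 12, 22, 15, 15, 10, 6, 6, 18, 16, 17, 19, 17, 16, 19, 20, 21, 21, 20, 26, 23, 23, 18, 24, 25, 27, 25, 24, 27, 28, 29, 29, 28, 46, 31, 31, 26, 22, 14, 14, 38, 34, 32, 33, 35, 33, 32, 35, 36, 37, 37, 36, 42, 39, 39, 34, 40, 41, 43, 41, 40, 43, 44, 45, 45, 44, 54, 47, 47, 42, 38, 50, 48, 49, 51, 49, 48, 51, 52, 53, 53, 52, 58, 55, 55, 50, 56, 57, 59, 57, 56, 59, 60, 61, 61, 60, 69, 69, 69, 69, 58, 54, 46, 69]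

theorem hLL : 0 < LL := by norm_num [LL]

theorem inst_range : ∀ a ∈ inst, 0 < a ∧ a ≤ 1 := by
  intro a ha
  rw [inst, sizes, List.mem_map] at ha
  obtain ⟨l, hl, rfl⟩ := ha
  have h1 : ∀ l ∈ items, 0 < l ∧ l ≤ LL := by decide +kernel
  have hq : (0 : ℚ) < (LL : ℚ) := by exact_mod_cast hLL
  constructor
  · exact div_pos (by exact_mod_cast (h1 l hl).1) hq
  · rw [div_le_one hq]
    exact_mod_cast (h1 l hl).2

theorem inst_length : inst.length = 205 := by
  have : items.length = 205 := by decide +kernel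
  simp [inst, sizes, this]

theorem pack70 : ∃ f : Fin inst.length → Fin 70, IsPacking inst 70 f :=
  exists_packing_of_nat hLL items 70 (fun i => Fin.ofNat 70 (assign.getD i.val 0))
    (by decide +kernel)

theorem no69 (k : ℕ) (f : Fin inst.length → Fin k) (hf : IsPacking inst k f) : 70 ≤ k :=
  le_trans opt_ge (Nat.sInf_le ⟨f, hf⟩)

theorem opt_eq : OPT inst = 70 := by
  apply le_antisymm
  · obtain ⟨f, hf⟩ := pack70
    exact Nat.sInf_le ⟨f, hf⟩
  · exact opt_ge

theorem frac : IsFracSol inst (sol LL 57348 cert) :=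
  isFracSol_of_cert hLL (by norm_num) items cert (by decide +kernel) (by decide +kernel)

theorem frac_val : (sol LL 57348 cert).sum (fun _ w => w) = 1969595 / 28674 := by
  rw [sol_sum]
  have e : (cert.map (fun p => p.2)).sum = 3939190 := by decide +kernel
  rw [e]
  norm_num

theorem vol (z : (ℚ →₀ ℕ) →₀ ℝ) (hz : IsFracSol inst z) : 68 < z.sum (fun _ w => w) := by
  have h := vol_le_of_fracSol (fun a ha => (inst_range a ha).1.le) hz
  have e : items.sum = 741030000010010000100100000010010000100101 := by decide +kernel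
  rw [inst, sizes_sum, e] at h
  have h2 : (68 : ℝ) <
      (((741030000010010000100100000010010000100101 : ℕ) : ℚ) / (LL : ℚ) : ℚ) := by
    rw [LL]
    norm_num
  linarith

theorem lp_gt : 68 < LP inst := by
  have h := vol_le_of_fracSol (fun a ha => (inst_range a ha).1.le) frac
  have hle : ((inst.sum : ℚ) : ℝ) ≤ LP inst := by
    rw [LP]
    refine le_csInf ⟨_, _, frac, rfl⟩ ?_
    rintro v ⟨z, hz, rfl⟩
    exact vol_le_of_fracSol (fun a ha => (inst_range a ha).1.le) hz
  have e : items.sum = 741030000010010000100100000010010000100101 := by decide +kernel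
  rw [inst, sizes_sum, e] at hle
  have h2 : (68 : ℝ) <
      (((741030000010010000100100000010010000100101 : ℕ) : ℚ) / (LL : ℚ) : ℚ) := by
    rw [LL]
    norm_num
  exact lt_of_lt_of_le h2 hle

end Vale.Agent.Lib.P302.Best37585
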