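import Vale.Agent.Lib.P302.General

namespace Vale.Agent.Lib.P302

/-- shrinking the items keeps a packing valid -/
theorem BinPack.map_le {L : ℕ} {s : Multiset ℕ} {k : ℕ} (h : BinPack L s k) (g : ℕ → ℕ)
    (hg : ∀ x, g x ≤ x) : BinPack L (s.map g) k := by
  obtain ⟨bs, h1, h2, rfl⟩ := h
  refine ⟨bs.map (Multiset.map g), by simpa using h1, ?_, ?_⟩
  · intro b hb
    obtain ⟨b', hb', rfl⟩ := Multiset.mem_map.mp hb
    refine le_trans ?_ (h2 b' hb')
    have := Multiset.sum_map_le_sum_map g id (s := b') (fun x _ => hg x)
    simpa using this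
  · rw [Multiset.map_join]

/-- removing an item keeps a packing valid -/
theorem BinPack.erase {L : ℕ} {s : Multiset ℕ} {k : ℕ} (h : BinPack L s k) (a : ℕ) :
    BinPack L (s.erase a) k := by
  by_cases ha : a ∈ s
  · obtain ⟨bs, h1, h2, rfl⟩ := h
    rw [Multiset.mem_join] at ha
    obtain ⟨b, hb, hab⟩ := ha
    obtain ⟨bs', rfl⟩ := Multiset.exists_cons_of_mem hb
    refine ⟨b.erase a ::ₘ bs', by simpa using h1, ?_, ?_⟩
    · intro t ht
      rw [Multiset.mem_cons] at ht
      rcases ht with rfl | ht
      · refine le_trans ?_ (h2 b (Multiset.mem_cons_self _ _))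
        have := Multiset.sum_erase hab
        omega
      · exact h2 t (Multiset.mem_cons_of_mem ht)
    · rw [Multiset.join_cons, Multiset.join_cons, Multiset.erase_add_left_pos _ hab]
  · rwa [Multiset.erase_of_notMem ha]

/-- a sub-multiset of a packable multiset is packable -/
theorem BinPack.of_le {L : ℕ} {s s' : Multiset ℕ} {k : ℕ} (h : BinPack L s k) (hs : s' ≤ s) :
    BinPack L s' k := by
  obtain ⟨t, rfl⟩ := Multiset.le_iff_exists_add.mp hs
  clear hs
  induction t using Multiset.induction_on with
  | empty => simpa using h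
  | cons a t ih =>
    apply ih
    have := h.erase a
    rwa [Multiset.add_cons, Multiset.erase_cons_head] at this

theorem not_binPack_of_pack {L fuel K : ℕ} {ls : List ℕ} (hs : pack L fuel K ls = false) :
    ¬ BinPack L (ls : Multiset ℕ) K := by
  intro h
  have := pack_complete L fuel K ls h
  rw [hs] at this
  exact Bool.false_ne_true this

/-- cut-off test: at most `K` bins are left and, after shrinking the items by `g`, the list still
contains the unpackable list `core` -/
def stopAt (K : ℕ) (g : ℕ → ℕ) (core : List ℕ) (k : ℕ) (ls : List ℕ) : Bool :=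
  decide (k ≤ K) && core.isSublist (ls.map g)

theorem stopAt_sound {L K : ℕ} {g : ℕ → ℕ} {core : List ℕ} (hg : ∀ x, g x ≤ x)
    (hcore : ¬ BinPack L (core : Multiset ℕ) K) (k : ℕ) (ls : List ℕ)
    (h : stopAt K g core k ls = true) : ¬ BinPack L (ls : Multiset ℕ) k := by
  intro hp
  rw [stopAt, Bool.and_eq_true, decide_eq_true_eq, List.isSublist_iff_sublist] at h
  apply hcore
  have h1 := (hp.mono h.1).map_le g hg
  rw [Multiset.map_coe] at h1
  exact h1.of_le (Multiset.coe_le.mpr h.2.subperm)

/-- the complete search `pack` with a cut-off test -/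
def packS (stop : ℕ → List ℕ → Bool) (L : ℕ) : ℕ → ℕ → List ℕ → Bool
  | _, _, [] => true
  | 0, _, _ :: _ => true
  | _ + 1, 0, _ :: _ => false
  | fuel + 1, k + 1, a :: rest =>
    !(stop (k + 1) (a :: rest)) && (decide (a ≤ L) &&
      choose (packS stop L fuel k) (L - a) (k * L) rest [])

theorem packS_complete (stop : ℕ → List ℕ → Bool) (L : ℕ)
    (hstop : ∀ k ls, stop k ls = true → ¬ BinPack L (ls : Multiset ℕ) k) :
    ∀ (fuel k : ℕ) (ls : List ℕ),
    BinPack L (ls : Multiset ℕ) k → packS stop L fuel k ls = true := by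
  intro fuel
  induction fuel with
  | zero =>
    intro k ls _
    cases ls <;> simp [packS]
  | succ fuel ih =>
    intro k ls h
    match ls, k with
    | [], k => simp [packS]
    | a :: rest, 0 =>
      exfalso
      obtain ⟨bs, h1, _, h3⟩ := h
      rw [Multiset.card_eq_zero] at h1
      subst h1
      rw [Multiset.join_zero, ← Multiset.cons_coe] at h3
      exact Multiset.zero_ne_cons h3
    | a :: rest, k + 1 =>
      have hst : stop (k + 1) (a :: rest) = false := by
        by_contra hc
        rw [Bool.not_eq_false] at hc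
        exact hstop _ _ hc h
      obtain ⟨bs, h1, h2, h3⟩ := h
      have ha : a ∈ bs.join := by rw [h3]; simp
      rw [Multiset.mem_join] at ha
      obtain ⟨b, hb, hab⟩ := ha
      obtain ⟨bs', rfl⟩ := Multiset.exists_cons_of_mem hb
      obtain ⟨b', rfl⟩ := Multiset.exists_cons_of_mem hab
      have hsum := h2 _ (Multiset.mem_cons_self _ _)
      rw [Multiset.sum_cons] at hsum
      rw [Multiset.join_cons, ← Multiset.cons_coe, Multiset.cons_add,
        Multiset.cons_inj_right] at h3
      rw [Multiset.card_cons] at h1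
      have hrest : BinPack L bs'.join k :=
        ⟨bs', by omega, fun t ht => h2 t (Multiset.mem_cons_of_mem ht), rfl⟩
      have e : (rest : Multiset ℕ) - b' = bs'.join := by
        rw [← h3]; simp
      rw [packS, hst]
      simp only [Bool.not_false, Bool.true_and, Bool.and_eq_true, decide_eq_true_eq]
      refine ⟨by omega, choose_complete _ rest (L - a) (k * L) [] b' ?_ (by omega) ?_ ?_⟩
      · rw [← h3]; exact Multiset.le_add_right _ _
      · rw [e]; exact hrest.sum_le
      · intro l hl
        apply ih
        rw [hl, e]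
        simpa using hrest

/-- lower bound for `OPT` from a failed complete search with a sound cut-off test -/
theorem OPT_ge_of_packS {L : ℕ} (hL : 0 < L) (ls : List ℕ) (hle : ∀ l ∈ ls, l ≤ L)
    (stop : ℕ → List ℕ → Bool)
    (hstop : ∀ k ls, stop k ls = true → ¬ BinPack L (ls : Multiset ℕ) k) (K fuel : ℕ)
    (hs : packS stop L fuel K ls = false) : K + 1 ≤ OPT (sizes L ls) := by
  apply le_csInf (OPT_set_nonempty hL ls hle)
  rintro k ⟨f, hf⟩
  obtain ⟨g, hg⟩ := packing_nat hL ls k f hf
  by_contra hcon
  have hk : k ≤ K := by omega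
  have := packS_complete stop L hstop fuel K ls ((binPack_of_fun L ls k g hg).mono hk)
  rw [hs] at this
  exact Bool.false_ne_true this

end Vale.Agent.Lib.P302
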