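import Vale.Agent.Lib.P302.Cut

namespace Vale.Agent.Lib.P302

/-- replacing an item by a smaller one keeps a packing valid -/
theorem BinPack.replace_le {L : ℕ} {s : Multiset ℕ} {k c x : ℕ} (h : BinPack L (x ::ₘ s) k)
    (hc : c ≤ x) : BinPack L (c ::ₘ s) k := by
  obtain ⟨bs, h1, h2, h3⟩ := h
  have hx : x ∈ bs.join := by rw [h3]; exact Multiset.mem_cons_self _ _
  rw [Multiset.mem_join] at hx
  obtain ⟨b, hb, hxb⟩ := hx
  obtain ⟨bs', rfl⟩ := Multiset.exists_cons_of_mem hb
  obtain ⟨b', rfl⟩ := Multiset.exists_cons_of_mem hxb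
  rw [Multiset.join_cons, Multiset.cons_add, Multiset.cons_inj_right] at h3
  refine ⟨(c ::ₘ b') ::ₘ bs', by simpa using h1, ?_, ?_⟩
  · intro t ht
    rw [Multiset.mem_cons] at ht
    rcases ht with rfl | ht
    · have := h2 _ (Multiset.mem_cons_self _ _)
      rw [Multiset.sum_cons] at this ⊢
      omega
    · exact h2 t (Multiset.mem_cons_of_mem ht)
  · rw [Multiset.join_cons, Multiset.cons_add, h3]

/-- positionwise domination: the `i`-th entry of the first list is at most the `i`-th entry of the
second one (which may be longer) -/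
def dom : List ℕ → List ℕ → Bool
  | [], _ => true
  | _ :: _, [] => false
  | c :: cs, x :: xs => decide (c ≤ x) && dom cs xs

theorem dom_sound {L k : ℕ} : ∀ (core ls : List ℕ) (t : Multiset ℕ), dom core ls = true →
    BinPack L (t + (ls : Multiset ℕ)) k → BinPack L (t + (core : Multiset ℕ)) k := by
  intro core
  induction core with
  | nil =>
    intro ls t _ h
    refine h.of_le ?_
    simp
  | cons c cs ih =>
    intro ls t hd h
    match ls with
    | [] => simp [dom] at hd
    | x :: xs =>
      rw [dom, Bool.and_eq_true, decide_eq_true_eq] at hd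
      rw [← Multiset.cons_coe, Multiset.add_cons] at h
      have h' := h.replace_le hd.1
      rw [← Multiset.cons_add] at h'
      have := ih xs (c ::ₘ t) hd.2 h'
      rw [Multiset.cons_add] at this
      rw [← Multiset.cons_coe, Multiset.add_cons]
      exact this

/-- cut-off test given by a list of unpackable lists, each with its number of bins -/
def stopL (cores : List (ℕ × List ℕ)) (k : ℕ) (ls : List ℕ) : Bool :=
  cores.any (fun p => decide (k = p.1) && dom p.2 ls)

theorem stopL_sound {L : ℕ} {cores : List (ℕ × List ℕ)}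
    (h : ∀ p ∈ cores, ¬ BinPack L ((p.2 : List ℕ) : Multiset ℕ) p.1) (k : ℕ) (ls : List ℕ)
    (hs : stopL cores k ls = true) : ¬ BinPack L (ls : Multiset ℕ) k := by
  intro hp
  rw [stopL, List.any_eq_true] at hs
  obtain ⟨p, hp1, hp2⟩ := hs
  rw [Bool.and_eq_true, decide_eq_true_eq] at hp2
  apply h p hp1
  have := dom_sound (L := L) (k := k) p.2 ls 0 hp2.2 (by simpa using hp)
  rw [← hp2.1]
  simpa using this

theorem not_binPack_of_packS {L fuel K : ℕ} {ls : List ℕ} (stop : ℕ → List ℕ → Bool)
    (hstop : ∀ k ls, stop k ls = true → ¬ BinPack L (ls : Multiset ℕ) k)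
    (hs : packS stop L fuel K ls = false) : ¬ BinPack L (ls : Multiset ℕ) K := by
  intro h
  have := packS_complete stop L hstop fuel K ls h
  rw [hs] at this
  exact Bool.false_ne_true this

end Vale.Agent.Lib.P302
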