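import Vale.Agent.Lib.P302.Framework

namespace Vale.Agent.Lib.P302

open Finset

/-- the certificate of `LP_le_of_cert` gives a feasible fractional solution -/
theorem isFracSol_of_cert {L : ℕ} (hL : 0 < L) {D : ℕ} (hD : 0 < D) (ls : List ℕ)
    (cert : List (List ℕ × ℕ))
    (h1 : ∀ p ∈ cert, (∀ l ∈ p.1, l ∈ ls) ∧ p.1.sum ≤ L)
    (h2 : ∀ l ∈ ls, D * ls.count l ≤ (cert.map (fun p => p.1.count l * p.2)).sum) :
    IsFracSol (sizes L ls) (sol L D cert) := by
  refine ⟨sol_nonneg L D cert, sol_support hL D ls cert h1, ?_⟩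
  intro σ hσ
  rw [sizes, List.mem_map] at hσ
  obtain ⟨l, hl, rfl⟩ := hσ
  rw [sol_cover hL, sizes, List.count_map_of_injective ls _ (div_inj hL) l,
    le_div_iff₀ (by exact_mod_cast hD)]
  have := h2 l hl
  have h3 : ((D * ls.count l : ℕ) : ℝ) ≤ ((cert.map (fun p => p.1.count l * p.2)).sum : ℕ) := by
    exact_mod_cast this
  rw [Nat.cast_mul] at h3
  linarith

/-- sum of a function over the multiset of a multiplicity vector -/
theorem toMultiset_map_sum (Y : ℚ → ℝ) (c : ℚ →₀ ℕ) :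
    ((Finsupp.toMultiset c).map Y).sum = c.sum (fun σ n => (n : ℝ) * Y σ) := by
  induction c using Finsupp.induction_linear with
  | zero => simp
  | add f g hf hg =>
    rw [Finsupp.toMultiset_add, Multiset.map_add, Multiset.sum_add, hf, hg,
      Finsupp.sum_add_index' (by simp) (by intros; push_cast; ring)]
  | single a n =>
    rw [Finsupp.toMultiset_single, Multiset.map_nsmul, Multiset.sum_nsmul,
      Finsupp.sum_single_index (by simp)]
    simp

theorem toMultiset_sum' (c : ℚ →₀ ℕ) :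
    (Finsupp.toMultiset c).sum = c.sum (fun σ n => σ * (n : ℚ)) := by
  induction c using Finsupp.induction_linear with
  | zero => simp
  | add f g hf hg =>
    rw [Finsupp.toMultiset_add, Multiset.sum_add, hf, hg,
      Finsupp.sum_add_index' (by simp) (by intros; push_cast; ring)]
  | single a n =>
    rw [Finsupp.toMultiset_single, Multiset.sum_nsmul, Finsupp.sum_single_index (by simp)]
    simp [mul_comm]

/-- the price of the size `σ = l / L` is `y l / D` -/
noncomputable def priceOf (L D : ℕ) (y : ℕ → ℕ) (σ : ℚ) : ℝ := (y ((σ * L).num.toNat) : ℝ) / D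

theorem priceOf_div {L : ℕ} (hL : 0 < L) (D : ℕ) (y : ℕ → ℕ) (l : ℕ) :
    priceOf L D y ((l : ℚ) / L) = (y l : ℝ) / D := by
  have hL' : (L : ℚ) ≠ 0 := by exact_mod_cast hL.ne'
  have : (l : ℚ) / L * L = (l : ℚ) := by field_simp
  rw [priceOf, this, Rat.num_natCast, Int.toNat_natCast]

/-- a multiset of sizes that fits into a bin has total price at most one -/
theorem price_multiset_le {L : ℕ} (hL : 0 < L) {D : ℕ} (hD : 0 < D) (ls : List ℕ) (y : ℕ → ℕ)
    (h4 : ∀ l ∈ ls, L < 4 * l)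
    (h1 : ∀ a ∈ ls, y a ≤ D)
    (h2 : ∀ a ∈ ls, ∀ b ∈ ls, a + b ≤ L → y a + y b ≤ D)
    (h3 : ∀ a ∈ ls, ∀ b ∈ ls, ∀ c ∈ ls, a + b + c ≤ L → y a + y b + y c ≤ D)
    (M : Multiset ℚ) (hM : ∀ σ ∈ M, σ ∈ sizes L ls) (hsum : M.sum ≤ 1) :
    (M.map (priceOf L D y)).sum ≤ 1 := by
  have hLq : (0 : ℚ) < L := by exact_mod_cast hL
  have hDr : (0 : ℝ) < D := by exact_mod_cast hD
  have hmem : ∀ σ ∈ M, ∃ l ∈ ls, σ = (l : ℚ) / L := by
    intro σ hσ
    have := hM σ hσ
    rw [sizes, List.mem_map] at this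
    obtain ⟨l, hl, rfl⟩ := this
    exact ⟨l, hl, rfl⟩
  have hcard : Multiset.card M ≤ 3 := by
    have hlow : ∀ σ ∈ M, ((L : ℚ) + 1) / (4 * L) ≤ σ := by
      intro σ hσ
      obtain ⟨l, hl, rfl⟩ := hmem σ hσ
      have h := h4 l hl
      have h' : (L : ℚ) + 1 ≤ 4 * l := by exact_mod_cast h
      rw [div_le_div_iff₀ (by positivity) hLq]
      nlinarith
    have := Multiset.card_nsmul_le_sum hlow
    rw [nsmul_eq_mul] at this
    have h5 : (Multiset.card M : ℚ) * (((L : ℚ) + 1) / (4 * L)) ≤ 1 := le_trans this hsum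
    rw [mul_div_assoc', div_le_one (by positivity)] at h5
    by_contra hcon
    push Not at hcon
    have h6 : (4 : ℚ) ≤ Multiset.card M := by exact_mod_cast hcon
    nlinarith
  have key : ∀ (k : ℕ), (k : ℝ) / D ≤ 1 ↔ k ≤ D := by
    intro k
    rw [div_le_one hDr]
    exact_mod_cast Iff.rfl
  have hc : Multiset.card M = 0 ∨ Multiset.card M = 1 ∨ Multiset.card M = 2 ∨
      Multiset.card M = 3 := by omega
  rcases hc with hc | hc | hc | hc
  · rw [Multiset.card_eq_zero] at hc
    subst hc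
    simp
  · rw [Multiset.card_eq_one] at hc
    obtain ⟨a, rfl⟩ := hc
    obtain ⟨la, hla, rfl⟩ := hmem a (by simp)
    simp only [Multiset.map_singleton, Multiset.sum_singleton, priceOf_div hL]
    exact (key _).mpr (h1 la hla)
  · rw [Multiset.card_eq_two] at hc
    obtain ⟨a, b, rfl⟩ := hc
    obtain ⟨la, hla, rfl⟩ := hmem a (by simp)
    obtain ⟨lb, hlb, rfl⟩ := hmem b (by simp)
    simp only [Multiset.insert_eq_cons, Multiset.map_cons, Multiset.sum_cons,
      Multiset.map_singleton, Multiset.sum_singleton, priceOf_div hL] at hsum ⊢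
    rw [← add_div, div_le_one hLq] at hsum
    have hs : la + lb ≤ L := by exact_mod_cast hsum
    have := (key _).mpr (h2 la hla lb hlb hs)
    push_cast at this
    rw [← add_div]
    exact this
  · rw [Multiset.card_eq_three] at hc
    obtain ⟨a, b, c, rfl⟩ := hc
    obtain ⟨la, hla, rfl⟩ := hmem a (by simp)
    obtain ⟨lb, hlb, rfl⟩ := hmem b (by simp)
    obtain ⟨lc, hlc, rfl⟩ := hmem c (by simp)
    simp only [Multiset.insert_eq_cons, Multiset.map_cons, Multiset.sum_cons,
      Multiset.map_singleton, Multiset.sum_singleton, priceOf_div hL] at hsum ⊢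
    rw [← add_div, ← add_div, div_le_one hLq] at hsum
    have hs : la + lb + lc ≤ L := by
      have : la + (lb + lc) ≤ L := by exact_mod_cast hsum
      omega
    have := (key _).mpr (h3 la hla lb hlb lc hlc hs)
    push_cast at this
    rw [← add_div, ← add_div, ← add_assoc]
    exact this

theorem sum_map_div (D : ℕ) (y : ℕ → ℕ) (ls : List ℕ) :
    (((ls.map y).sum : ℕ) : ℝ) / D = (ls.map (fun l : ℕ => (y l : ℝ) / D)).sum := by
  induction ls with
  | nil => simp
  | cons a t ih =>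
    simp only [List.map_cons, List.sum_cons]
    rw [Nat.cast_add, add_div, ih]

/-- weak duality: LP lower bound from integer prices `y`, to be divided by `D`. -/
theorem LP_ge_of_dual {L : ℕ} (hL : 0 < L) {D : ℕ} (hD : 0 < D) (ls : List ℕ) (y : ℕ → ℕ)
    (h4 : ∀ l ∈ ls, L < 4 * l)
    (h1 : ∀ a ∈ ls, y a ≤ D)
    (h2 : ∀ a ∈ ls, ∀ b ∈ ls, a + b ≤ L → y a + y b ≤ D)
    (h3 : ∀ a ∈ ls, ∀ b ∈ ls, ∀ c ∈ ls, a + b + c ≤ L → y a + y b + y c ≤ D)
    (hne : ∃ z, IsFracSol (sizes L ls) z) :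
    (((ls.map y).sum : ℕ) : ℝ) / D ≤ LP (sizes L ls) := by
  classical
  obtain ⟨z0, hz0⟩ := hne
  rw [LP]
  refine le_csInf ⟨z0.sum (fun _ w => w), z0, hz0, rfl⟩ ?_
  rintro v ⟨z, hz, rfl⟩
  set I := sizes L ls with hI
  set Y := priceOf L D y with hY
  have hYnn : ∀ σ, 0 ≤ Y σ := fun σ => by rw [hY, priceOf]; positivity
  -- left side as a sum over the distinct sizes
  have e1 : (((ls.map y).sum : ℕ) : ℝ) / D = ∑ σ ∈ I.toFinset, (I.count σ : ℝ) * Y σ := by
    have := Finset.sum_list_map_count I Y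
    simp only [nsmul_eq_mul] at this
    rw [← this, hI, sizes, List.map_map]
    have : (Y ∘ fun l : ℕ => (l : ℚ) / L) = fun l : ℕ => (y l : ℝ) / D := by
      funext l
      exact priceOf_div hL D y l
    rw [this, sum_map_div]
  have e2 : ∀ σ ∈ I.toFinset,
      (I.count σ : ℝ) * Y σ ≤ (∑ c ∈ z.support, (c σ : ℝ) * z c) * Y σ := by
    intro σ hσ
    apply mul_le_mul_of_nonneg_right _ (hYnn σ)
    exact hz.2.2 σ (List.mem_toFinset.mp hσ)
  have e3 : ∑ σ ∈ I.toFinset, (∑ c ∈ z.support, (c σ : ℝ) * z c) * Y σ =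
      ∑ c ∈ z.support, z c * ∑ σ ∈ I.toFinset, (c σ : ℝ) * Y σ := by
    simp_rw [Finset.sum_mul, Finset.mul_sum]
    rw [Finset.sum_comm]
    apply Finset.sum_congr rfl
    intro c _
    apply Finset.sum_congr rfl
    intro σ _
    ring
  have e4 : ∀ c ∈ z.support, ∑ σ ∈ I.toFinset, (c σ : ℝ) * Y σ ≤ 1 := by
    intro c hc
    have hcfg := hz.2.1 c hc
    have hsub : c.support ⊆ I.toFinset := fun σ hσ => List.mem_toFinset.mpr (hcfg.1 σ hσ)
    have : ∑ σ ∈ I.toFinset, (c σ : ℝ) * Y σ = c.sum (fun σ n => (n : ℝ) * Y σ) := by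
      rw [Finsupp.sum]
      symm
      apply Finset.sum_subset hsub
      intro σ _ hσ
      rw [Finsupp.notMem_support_iff.mp hσ]
      simp
    rw [this, ← toMultiset_map_sum]
    apply price_multiset_le hL hD ls y h4 h1 h2 h3
    · intro σ hσ
      exact hcfg.1 σ ((Finsupp.mem_toMultiset c σ).mp hσ)
    · rw [toMultiset_sum']
      exact hcfg.2
  calc (((ls.map y).sum : ℕ) : ℝ) / D = ∑ σ ∈ I.toFinset, (I.count σ : ℝ) * Y σ := e1
    _ ≤ ∑ σ ∈ I.toFinset, (∑ c ∈ z.support, (c σ : ℝ) * z c) * Y σ := Finset.sum_le_sum e2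
    _ = ∑ c ∈ z.support, z c * ∑ σ ∈ I.toFinset, (c σ : ℝ) * Y σ := e3
    _ ≤ ∑ c ∈ z.support, z c * 1 :=
        Finset.sum_le_sum (fun c hc => mul_le_mul_of_nonneg_left (e4 c hc) (hz.1 c))
    _ = z.sum (fun _ w => w) := by simp [Finsupp.sum]

/-- boolean check of dual feasibility for a table of pairs (length, price) -/
def dualCheck (L D : ℕ) (tbl : List (ℕ × ℕ)) : Bool :=
  tbl.all (fun p => Nat.ble p.2 D && tbl.all (fun q =>
    (!(Nat.ble (p.1 + q.1) L) || Nat.ble (p.2 + q.2) D) &&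
    (!(Nat.beq p.1 q.1) || Nat.beq p.2 q.2) &&
    tbl.all (fun r => !(Nat.ble (p.1 + q.1 + r.1) L) || Nat.ble (p.2 + q.2 + r.2) D)))

/-- weak duality with the prices given by a table -/
theorem LP_ge_of_table {L : ℕ} (hL : 0 < L) {D : ℕ} (hD : 0 < D) (tbl : List (ℕ × ℕ))
    (h4 : ∀ p ∈ tbl, L < 4 * p.1) (hchk : dualCheck L D tbl = true)
    (hne : ∃ z, IsFracSol (sizes L (tbl.map Prod.fst)) z) :
    (((tbl.map Prod.snd).sum : ℕ) : ℝ) / D ≤ LP (sizes L (tbl.map Prod.fst)) := by
  classical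
  simp only [dualCheck, List.all_eq_true, Bool.and_eq_true, Bool.or_eq_true, Bool.not_eq_true',
    Nat.ble_eq, Nat.beq_eq] at hchk
  let y : ℕ → ℕ := fun l => if h : ∃ p ∈ tbl, p.1 = l then (Classical.choose h).2 else 0
  have hy : ∀ p ∈ tbl, y p.1 = p.2 := by
    intro p hp
    have h : ∃ q ∈ tbl, q.1 = p.1 := ⟨p, hp, rfl⟩
    have hs := Classical.choose_spec h
    simp only [y, dif_pos h]
    rcases ((hchk _ hs.1).2 p hp).1.2 with h' | h'
    · rw [← Bool.not_eq_true, Nat.beq_eq] at h'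
      exact absurd hs.2 h'
    · exact h'
  have hsum : (tbl.map Prod.snd).sum = ((tbl.map Prod.fst).map y).sum := by
    rw [List.map_map]
    congr 1
    apply List.map_congr_left
    intro p hp
    exact (hy p hp).symm
  rw [hsum]
  have hble : ∀ a b : ℕ, Nat.ble a b = false → ¬ a ≤ b := by
    intro a b h h'
    rw [← Nat.ble_eq, h] at h'
    exact Bool.false_ne_true h'
  apply LP_ge_of_dual hL hD _ y _ _ _ _ hne
  · intro l hl
    obtain ⟨p, hp, rfl⟩ := List.mem_map.mp hl
    exact h4 p hp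
  · intro a ha
    obtain ⟨p, hp, rfl⟩ := List.mem_map.mp ha
    rw [hy p hp]
    exact (hchk p hp).1
  · intro a ha b hb hab
    obtain ⟨p, hp, rfl⟩ := List.mem_map.mp ha
    obtain ⟨q, hq, rfl⟩ := List.mem_map.mp hb
    rw [hy p hp, hy q hq]
    rcases ((hchk p hp).2 q hq).1.1 with h | h
    · exact absurd hab (hble _ _ h)
    · exact h
  · intro a ha b hb c hc habc
    obtain ⟨p, hp, rfl⟩ := List.mem_map.mp ha
    obtain ⟨q, hq, rfl⟩ := List.mem_map.mp hb
    obtain ⟨r, hr, rfl⟩ := List.mem_map.mp hc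
    rw [hy p hp, hy q hq, hy r hr]
    rcases ((hchk p hp).2 q hq).2 r hr with h | h
    · exact absurd habc (hble _ _ h)
    · exact h

/-- variant of `LP_ge_of_table` for a separately given list of lengths -/
theorem LP_ge_of_table' {L : ℕ} (hL : 0 < L) {D : ℕ} (hD : 0 < D) (tbl : List (ℕ × ℕ))
    (ls : List ℕ) (S : ℕ) (hls : tbl.map Prod.fst = ls) (hS : (tbl.map Prod.snd).sum = S)
    (h4 : ∀ p ∈ tbl, L < 4 * p.1) (hchk : dualCheck L D tbl = true)
    (hne : ∃ z, IsFracSol (sizes L ls) z) :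
    (S : ℝ) / D ≤ LP (sizes L ls) := by
  subst hls
  subst hS
  exact LP_ge_of_table hL hD tbl h4 hchk hne

/-- the part of `dualCheck` belonging to one first element -/
def dualInner (L D : ℕ) (tbl : List (ℕ × ℕ)) (p : ℕ × ℕ) : Bool :=
  Nat.ble p.2 D && tbl.all (fun q =>
    (!(Nat.ble (p.1 + q.1) L) || Nat.ble (p.2 + q.2) D) &&
    (!(Nat.beq p.1 q.1) || Nat.beq p.2 q.2) &&
    tbl.all (fun r => !(Nat.ble (p.1 + q.1 + r.1) L) || Nat.ble (p.2 + q.2 + r.2) D))

/-- `dualCheck` may be verified chunk by chunk -/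
theorem dualCheck_of_chunks (L D : ℕ) (tbl : List (ℕ × ℕ)) (chunks : List (List (ℕ × ℕ)))
    (h : chunks.flatten = tbl) (hc : ∀ c ∈ chunks, c.all (dualInner L D tbl) = true) :
    dualCheck L D tbl = true := by
  have e : dualCheck L D tbl = tbl.all (dualInner L D tbl) := rfl
  rw [e, List.all_eq_true]
  intro p hp
  rw [← h, List.mem_flatten] at hp
  obtain ⟨c, hcm, hpc⟩ := hp
  exact List.all_eq_true.mp (hc c hcm) p hpc

/-- dual feasibility check on a list of representatives (length, price) -/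
def repsCheck (L D : ℕ) (reps : List (ℕ × ℕ)) : Bool :=
  reps.all (fun p => Nat.ble p.2 D && reps.all (fun q =>
    (!(Nat.ble (p.1 + q.1) L) || Nat.ble (p.2 + q.2) D) &&
    reps.all (fun r => !(Nat.ble (p.1 + q.1 + r.1) L) || Nat.ble (p.2 + q.2 + r.2) D)))

/-- `dualCheck` follows from the check on representatives: every entry of the table is dominated
by a representative that is not longer and not cheaper. -/
theorem dualCheck_of_reps (L D : ℕ) (tbl reps : List (ℕ × ℕ))
    (hfun : tbl.all (fun p => tbl.all (fun q => !(Nat.beq p.1 q.1) || Nat.beq p.2 q.2)) = true)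
    (hdom : tbl.all (fun p => reps.any (fun r => Nat.ble r.1 p.1 && Nat.ble p.2 r.2)) = true)
    (hreps : repsCheck L D reps = true) : dualCheck L D tbl = true := by
  simp only [repsCheck, List.all_eq_true, Bool.and_eq_true, Bool.or_eq_true, Bool.not_eq_true',
    Nat.ble_eq] at hreps
  simp only [List.all_eq_true, List.any_eq_true, Bool.and_eq_true, Nat.ble_eq] at hdom
  simp only [List.all_eq_true] at hfun
  have hble : ∀ a b : ℕ, Nat.ble a b = false → ¬ a ≤ b := by
    intro a b h h'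
    rw [← Nat.ble_eq, h] at h'
    exact Bool.false_ne_true h'
  have hble' : ∀ a b : ℕ, ¬ a ≤ b → Nat.ble a b = false := by
    intro a b h
    by_contra hcon
    rw [Bool.not_eq_false, Nat.ble_eq] at hcon
    exact h hcon
  simp only [dualCheck, List.all_eq_true, Bool.and_eq_true, Bool.or_eq_true, Bool.not_eq_true',
    Nat.ble_eq]
  intro p hp
  obtain ⟨rp, hrp, hp1, hp2⟩ := hdom p hp
  refine ⟨le_trans hp2 (hreps rp hrp).1, ?_⟩
  intro q hq
  obtain ⟨rq, hrq, hq1, hq2⟩ := hdom q hq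
  refine ⟨⟨?_, ?_⟩, ?_⟩
  · by_cases h : p.1 + q.1 ≤ L
    · right
      rcases ((hreps rp hrp).2 rq hrq).1 with h' | h'
      · exact absurd (by omega) (hble _ _ h')
      · omega
    · left
      exact hble' _ _ h
  · have := hfun p hp q hq
    rw [Bool.or_eq_true, Bool.not_eq_true'] at this
    exact this
  · intro r hr
    obtain ⟨rr, hrr, hr1, hr2⟩ := hdom r hr
    by_cases h : p.1 + q.1 + r.1 ≤ L
    · right
      rcases ((hreps rp hrp).2 rq hrq).2 rr hrr with h' | h'
      · exact absurd (by omega) (hble _ _ h')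
      · omega
    · left
      exact hble' _ _ h

/-- upper bound for `OPT` from an explicit assignment of the items to `k` bins -/
theorem OPT_le_of_nat {L : ℕ} (hL : 0 < L) (ls : List ℕ) (k : ℕ) (g : Fin ls.length → Fin k)
    (hg : ∀ b : Fin k, (∑ i : Fin ls.length, if g i = b then ls.get i else 0) ≤ L) :
    OPT (sizes L ls) ≤ k := by
  have hlen : (sizes L ls).length = ls.length := by simp [sizes]
  apply Nat.sInf_le
  refine ⟨fun i => g (Fin.cast hlen i), ?_⟩
  intro b
  have h2 : (∑ i : Fin (sizes L ls).length,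
      if g (Fin.cast hlen i) = b then (sizes L ls).get i else 0) =
      ∑ i : Fin ls.length, if g i = b then ((ls.get i : ℕ) : ℚ) / L else 0 := by
    rw [← Equiv.sum_comp (finCongr hlen.symm)]
    apply Finset.sum_congr rfl
    intro i _
    simp only [sizes, List.get_eq_getElem, List.getElem_map]
    rfl
  rw [h2]
  have h3 : (∑ i : Fin ls.length, if g i = b then ((ls.get i : ℕ) : ℚ) / L else 0) =
      ((∑ i : Fin ls.length, if g i = b then ls.get i else 0 : ℕ) : ℚ) / L := by
    rw [Nat.cast_sum, Finset.sum_div]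
    apply Finset.sum_congr rfl
    intro i _
    split_ifs <;> simp
  rw [h3, div_le_one (by exact_mod_cast hL)]
  exact_mod_cast hg b

end Vale.Agent.Lib.P302
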