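import Mathlib

namespace Vale.Agent.Lib.P302

open Finset

/-- `f` packs the items of `I` (indexed by position) into `k` bins of capacity `1`. -/
def IsPacking (I : List ℚ) (k : ℕ) (f : Fin I.length → Fin k) : Prop :=
  ∀ b : Fin k, (∑ i : Fin I.length, if f i = b then I.get i else 0) ≤ 1

/-- least number of bins -/
noncomputable def OPT (I : List ℚ) : ℕ :=
  sInf {k : ℕ | ∃ f : Fin I.length → Fin k, IsPacking I k f}

/-- a configuration: a vector of multiplicities on the sizes of `I` of total size at most `1` -/
def IsConfig (I : List ℚ) (c : ℚ →₀ ℕ) : Prop :=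
  (∀ σ ∈ c.support, σ ∈ I) ∧ c.sum (fun σ m => σ * (m : ℚ)) ≤ 1

/-- a feasible solution of the Gilmore-Gomory configuration LP -/
def IsFracSol (I : List ℚ) (z : (ℚ →₀ ℕ) →₀ ℝ) : Prop :=
  (∀ c, 0 ≤ z c) ∧ (∀ c ∈ z.support, IsConfig I c) ∧
    ∀ σ ∈ I, (I.count σ : ℝ) ≤ z.sum (fun c w => (c σ : ℝ) * w)

/-- the value of the configuration LP -/
noncomputable def LP (I : List ℚ) : ℝ :=
  sInf {v : ℝ | ∃ z, IsFracSol I z ∧ v = z.sum (fun _ w => w)}

theorem LP_le_of_sol {I : List ℚ} {z : (ℚ →₀ ℕ) →₀ ℝ} (hz : IsFracSol I z) :
    LP I ≤ z.sum (fun _ w => w) := by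
  apply csInf_le
  · refine ⟨0, ?_⟩
    rintro v ⟨z', hz', rfl⟩
    exact Finsupp.sum_nonneg (fun c _ => hz'.1 c)
  · exact ⟨z, hz, rfl⟩

/-- sizes `l / L` -/
def sizes (L : ℕ) (ls : List ℕ) : List ℚ := ls.map (fun l : ℕ => (l : ℚ) / L)

/-- the configuration given by a list of lengths -/
noncomputable def cfg (L : ℕ) : List ℕ → (ℚ →₀ ℕ)
  | [] => 0
  | l :: t => Finsupp.single ((l : ℚ) / L) 1 + cfg L t

/-- the fractional solution given by a certificate -/
noncomputable def sol (L D : ℕ) : List (List ℕ × ℕ) → ((ℚ →₀ ℕ) →₀ ℝ)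
  | [] => 0
  | p :: t => Finsupp.single (cfg L p.1) ((p.2 : ℝ) / D) + sol L D t

theorem div_inj {L : ℕ} (hL : 0 < L) : Function.Injective (fun l : ℕ => (l : ℚ) / L) := by
  intro a b h
  have hL' : (L : ℚ) ≠ 0 := by exact_mod_cast hL.ne'
  have := (div_left_inj' hL').mp h
  exact_mod_cast this

theorem cfg_apply {L : ℕ} (hL : 0 < L) (c : List ℕ) (l : ℕ) :
    cfg L c ((l : ℚ) / L) = c.count l := by
  induction c with
  | nil => simp [cfg]
  | cons a t ih =>
    rw [cfg, Finsupp.add_apply, ih, List.count_cons, Finsupp.single_apply]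
    by_cases h : a = l
    · subst h; simp [add_comm]
    · have : ¬ ((a : ℚ) / L = (l : ℚ) / L) := fun h' => h (div_inj hL h')
      simp [this, h]

theorem cfg_support (L : ℕ) (c : List ℕ) : ∀ σ ∈ (cfg L c).support, σ ∈ sizes L c := by
  induction c with
  | nil => simp [cfg]
  | cons a t ih =>
    intro σ hσ
    rw [cfg] at hσ
    have := Finsupp.support_add hσ
    rw [Finset.mem_union] at this
    rcases this with h | h
    · have := Finsupp.support_single_subset h
      rw [Finset.mem_singleton] at this
      subst this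
      simp [sizes]
    · have := ih σ h
      simp only [sizes, List.map_cons, List.mem_cons]
      right; exact this

theorem cfg_sum (L : ℕ) (c : List ℕ) :
    (cfg L c).sum (fun σ m => σ * (m : ℚ)) = (c.sum : ℚ) / L := by
  induction c with
  | nil => simp [cfg]
  | cons a t ih =>
    rw [cfg, Finsupp.sum_add_index' (by simp) (by intros; push_cast; ring), ih,
      Finsupp.sum_single_index (by simp)]
    simp only [List.sum_cons]
    push_cast
    ring

theorem cfg_isConfig {L : ℕ} (hL : 0 < L) (ls c : List ℕ) (h1 : ∀ l ∈ c, l ∈ ls)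
    (h2 : c.sum ≤ L) : IsConfig (sizes L ls) (cfg L c) := by
  constructor
  · intro σ hσ
    have := cfg_support L c σ hσ
    rw [sizes, List.mem_map] at this
    obtain ⟨l, hl, rfl⟩ := this
    exact List.mem_map.mpr ⟨l, h1 l hl, rfl⟩
  · rw [cfg_sum, div_le_one (by exact_mod_cast hL)]
    exact_mod_cast h2

theorem sol_nonneg (L D : ℕ) (cert : List (List ℕ × ℕ)) (c : ℚ →₀ ℕ) : 0 ≤ sol L D cert c := by
  induction cert with
  | nil => simp [sol]
  | cons p t ih =>
    rw [sol, Finsupp.add_apply]
    apply add_nonneg _ ih
    rw [Finsupp.single_apply]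
    split_ifs
    · positivity
    · exact le_rfl

theorem sol_support {L : ℕ} (hL : 0 < L) (D : ℕ) (ls : List ℕ) (cert : List (List ℕ × ℕ))
    (h : ∀ p ∈ cert, (∀ l ∈ p.1, l ∈ ls) ∧ p.1.sum ≤ L) :
    ∀ c ∈ (sol L D cert).support, IsConfig (sizes L ls) c := by
  induction cert with
  | nil => simp [sol]
  | cons p t ih =>
    intro c hc
    rw [sol] at hc
    have := Finsupp.support_add hc
    rw [Finset.mem_union] at this
    rcases this with h' | h'
    · have := Finsupp.support_single_subset h'
      rw [Finset.mem_singleton] at this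
      subst this
      exact cfg_isConfig hL ls p.1 (h p (by simp)).1 (h p (by simp)).2
    · exact ih (fun q hq => h q (List.mem_cons_of_mem _ hq)) c h'

theorem sol_sum (L D : ℕ) (cert : List (List ℕ × ℕ)) :
    (sol L D cert).sum (fun _ w => w) = (((cert.map (fun p => p.2)).sum : ℕ) : ℝ) / D := by
  induction cert with
  | nil => simp [sol]
  | cons p t ih =>
    rw [sol, Finsupp.sum_add_index' (by simp) (by intros; rfl), ih,
      Finsupp.sum_single_index rfl]
    simp only [List.map_cons, List.sum_cons]
    push_cast
    ring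

theorem sol_cover {L : ℕ} (hL : 0 < L) (D : ℕ) (cert : List (List ℕ × ℕ)) (l : ℕ) :
    (sol L D cert).sum (fun c w => (c ((l : ℚ) / L) : ℝ) * w) =
      (((cert.map (fun p => p.1.count l * p.2)).sum : ℕ) : ℝ) / D := by
  induction cert with
  | nil => simp [sol]
  | cons p t ih =>
    rw [sol, Finsupp.sum_add_index' (by simp) (by intros; ring), ih,
      Finsupp.sum_single_index (by simp), cfg_apply hL]
    simp only [List.map_cons, List.sum_cons]
    push_cast
    ring

/-- LP upper bound from an integer certificate: a list of configurations (lists of lengths) with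
integer weights, to be divided by `D`. -/
theorem LP_le_of_cert {L : ℕ} (hL : 0 < L) {D : ℕ} (hD : 0 < D) (ls : List ℕ)
    (cert : List (List ℕ × ℕ))
    (h1 : ∀ p ∈ cert, (∀ l ∈ p.1, l ∈ ls) ∧ p.1.sum ≤ L)
    (h2 : ∀ l ∈ ls, D * ls.count l ≤ (cert.map (fun p => p.1.count l * p.2)).sum) :
    LP (sizes L ls) ≤ (((cert.map (fun p => p.2)).sum : ℕ) : ℝ) / D := by
  rw [← sol_sum L D cert]
  apply LP_le_of_sol
  refine ⟨sol_nonneg L D cert, sol_support hL D ls cert h1, ?_⟩
  intro σ hσ
  rw [sizes, List.mem_map] at hσ
  obtain ⟨l, hl, rfl⟩ := hσ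
  rw [sol_cover hL, sizes, List.count_map_of_injective ls _ (div_inj hL) l,
    le_div_iff₀ (by exact_mod_cast hD)]
  have := h2 l hl
  have h3 : ((D * ls.count l : ℕ) : ℝ) ≤ ((cert.map (fun p => p.1.count l * p.2)).sum : ℕ) := by
    exact_mod_cast this
  rw [Nat.cast_mul] at h3
  linarith

/-- `m` disjoint triples of total length at most `L` can be chosen inside the multiset `s`. -/
def TriplePack (L : ℕ) (s : Multiset ℕ) (m : ℕ) : Prop :=
  ∃ ts : Multiset (Multiset ℕ), Multiset.card ts = m ∧
    (∀ t ∈ ts, Multiset.card t = 3 ∧ t.sum ≤ L) ∧ ts.join ≤ s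

/-- depth-first search for `m` disjoint feasible triples -/
def search (L : ℕ) : ℕ → List ℕ → ℕ → Bool
  | 0, _, m => m == 0
  | _ + 1, [], m => m == 0
  | _ + 1, _ :: _, 0 => true
  | fuel + 1, x :: rest, m + 1 =>
    (3 * (m + 1) ≤ rest.length + 1) &&
      (search L fuel rest (m + 1) ||
        rest.dedup.any (fun y => (rest.erase y).dedup.any (fun z =>
          z ≤ y && x + y + z ≤ L && search L fuel ((rest.erase y).erase z) m)))

theorem TriplePack.card_le {L : ℕ} {s : Multiset ℕ} {m : ℕ} (h : TriplePack L s m) :
    3 * m ≤ Multiset.card s := by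
  obtain ⟨ts, h1, h2, h3⟩ := h
  have h4 : Multiset.card ts.join = 3 * m := by
    rw [Multiset.card_join, ← h1]
    have : ts.map Multiset.card = ts.map (fun _ => 3) :=
      Multiset.map_congr rfl (fun t ht => (h2 t ht).1)
    rw [this, Multiset.map_const', Multiset.sum_replicate, smul_eq_mul, mul_comm]
  rw [← h4]
  exact Multiset.card_le_card h3

theorem search_complete (L : ℕ) : ∀ (fuel : ℕ) (ls : List ℕ) (m : ℕ), ls.length ≤ fuel →
    TriplePack L (ls : Multiset ℕ) m → search L fuel ls m = true := by
  intro fuel
  induction fuel with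
  | zero =>
    intro ls m hlen h
    have := h.card_le
    simp only [Multiset.coe_card] at this
    have hm : m = 0 := by omega
    simp [search, hm]
  | succ fuel ih =>
    intro ls m hlen h
    match ls, m with
    | [], m =>
      have := h.card_le
      simp only [Multiset.coe_card, List.length_nil] at this
      have hm : m = 0 := by omega
      simp [search, hm]
    | x :: rest, 0 => simp [search]
    | x :: rest, m + 1 =>
      have hcard := h.card_le
      simp only [Multiset.coe_card, List.length_cons] at hcard
      simp only [List.length_cons] at hlen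
      obtain ⟨ts, h1, h2, h3⟩ := h
      rw [search]
      simp only [Bool.and_eq_true, decide_eq_true_eq, Bool.or_eq_true, List.any_eq_true,
        List.mem_dedup]
      refine ⟨hcard, ?_⟩
      by_cases hx : ts.join ≤ (rest : Multiset ℕ)
      · left
        exact ih rest (m + 1) (by omega) ⟨ts, h1, h2, hx⟩
      · right
        -- `x` occurs in some triple
        have hxmem : x ∈ ts.join := by
          by_contra hcon
          apply hx
          rw [← Multiset.cons_coe] at h3
          exact (Multiset.le_cons_of_notMem hcon).mp h3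
        rw [Multiset.mem_join] at hxmem
        obtain ⟨t, ht, hxt⟩ := hxmem
        obtain ⟨ts', rfl⟩ := Multiset.exists_cons_of_mem ht
        obtain ⟨t', rfl⟩ := Multiset.exists_cons_of_mem hxt
        have ht3 := h2 (x ::ₘ t') (Multiset.mem_cons_self _ _)
        have hc2 : Multiset.card t' = 2 := by
          have := ht3.1
          rw [Multiset.card_cons] at this
          omega
        rw [Multiset.card_eq_two] at hc2
        obtain ⟨a, b, rfl⟩ := hc2
        -- order the pair
        wlog hab : b ≤ a generalizing a b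
        · have hba : a ≤ b := le_of_not_ge hab
          have hswap : ({a, b} : Multiset ℕ) = {b, a} := Multiset.pair_comm a b
          rw [hswap] at h1 h2 h3 ht hxt ht3 hx
          exact this b a hxt h1 h2 h3 hx ht ht3 hba
        have hsum : x + a + b ≤ L := by
          have := ht3.2
          simp only [Multiset.sum_cons, Multiset.insert_eq_cons, Multiset.sum_singleton] at this
          omega
        rw [Multiset.join_cons, ← Multiset.cons_coe, Multiset.cons_add,
          Multiset.cons_le_cons_iff] at h3
        have hpair : ({a, b} : Multiset ℕ) ≤ (rest : Multiset ℕ) :=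
          le_trans (Multiset.le_add_right _ _) h3
        have ha : a ∈ rest := by
          have : a ∈ (rest : Multiset ℕ) := Multiset.mem_of_le hpair (by simp)
          simpa using this
        have hb' : ({b} : Multiset ℕ) ≤ ((rest.erase a : List ℕ) : Multiset ℕ) := by
          rw [← Multiset.coe_erase]
          have := Multiset.erase_le_erase a hpair
          simpa [Multiset.insert_eq_cons] using this
        have hb : b ∈ rest.erase a := by
          have : b ∈ ((rest.erase a : List ℕ) : Multiset ℕ) := Multiset.mem_of_le hb' (by simp)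
          simpa using this
        refine ⟨a, ha, b, hb, ⟨hab, hsum⟩, ?_⟩
        apply ih _ m
        · have e1 := List.length_erase_of_mem ha
          have e2 := List.length_erase_of_mem hb
          omega
        · refine ⟨ts', ?_, fun t ht' => h2 t (Multiset.mem_cons_of_mem ht'), ?_⟩
          · rw [Multiset.card_cons] at h1; omega
          · rw [← Multiset.coe_erase, ← Multiset.coe_erase]
            have h5 := Multiset.erase_le_erase b (Multiset.erase_le_erase a h3)
            have h6 : ((({a, b} : Multiset ℕ) + ts'.join).erase a).erase b = ts'.join := by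
              simp [Multiset.insert_eq_cons]
            rwa [h6] at h5

theorem bins_lower (L : ℕ) (ls : List ℕ) (h4 : ∀ l ∈ ls, L < 4 * l) (k : ℕ)
    (g : Fin ls.length → Fin k)
    (hg : ∀ b : Fin k, (∑ i : Fin ls.length, if g i = b then ls.get i else 0) ≤ L)
    (ν : ℕ) (hν : ¬ TriplePack L (ls : Multiset ℕ) (ν + 1)) : ls.length ≤ 2 * k + ν := by
  classical
  let S : Fin k → Finset (Fin ls.length) := fun b => univ.filter (fun i => g i = b)
  have hsum : ∀ b, ∑ i ∈ S b, ls.get i ≤ L := by
    intro b
    have := hg b
    rwa [← Finset.sum_filter] at this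
  have hcard : ∀ b, (S b).card ≤ 3 := by
    intro b
    by_contra hcon
    push Not at hcon
    have h1 : ∑ i ∈ S b, (L + 1) ≤ ∑ i ∈ S b, 4 * ls.get i := by
      apply Finset.sum_le_sum
      intro i _
      exact h4 _ (List.get_mem ls i)
    rw [Finset.sum_const, smul_eq_mul, ← Finset.mul_sum] at h1
    have h2 := hsum b
    nlinarith
  let T : Finset (Fin k) := univ.filter (fun b => (S b).card = 3)
  have hn : ls.length = ∑ b, (S b).card := by
    have := Finset.card_eq_sum_card_fiberwise (f := g) (s := (univ : Finset (Fin ls.length)))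
      (t := (univ : Finset (Fin k))) (fun _ _ => Finset.mem_univ _)
    simpa [S] using this
  have hle : ∑ b, (S b).card ≤ ∑ b : Fin k, (2 + if (S b).card = 3 then 1 else 0) := by
    apply Finset.sum_le_sum
    intro b _
    have := hcard b
    split_ifs with h <;> omega
  have hT : ∑ b : Fin k, (2 + if (S b).card = 3 then 1 else 0) = 2 * k + T.card := by
    rw [Finset.sum_add_distrib, Finset.sum_const, Finset.card_univ, Fintype.card_fin,
      smul_eq_mul, mul_comm, Finset.card_filter]
  have hTν : T.card ≤ ν := by
    by_contra hcon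
    push Not at hcon
    apply hν
    obtain ⟨T', hT'sub, hT'card⟩ := Finset.exists_subset_card_eq (s := T) (n := ν + 1) hcon
    refine ⟨T'.val.map (fun b => (S b).val.map ls.get), ?_, ?_, ?_⟩
    · rw [Multiset.card_map]; exact hT'card
    · intro t ht
      rw [Multiset.mem_map] at ht
      obtain ⟨b, hb, rfl⟩ := ht
      constructor
      · rw [Multiset.card_map]
        have := hT'sub hb
        exact (Finset.mem_filter.mp this).2
      · exact hsum b
    · have hdisj : (T' : Set (Fin k)).PairwiseDisjoint S := by
        intro b _ b' _ hbb'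
        rw [Function.onFun, Finset.disjoint_left]
        intro i hi hi'
        exact hbb' ((Finset.mem_filter.mp hi).2.symm.trans (Finset.mem_filter.mp hi').2)
      have e1 : (T'.val.map (fun b => (S b).val.map ls.get)).join =
          ((T'.disjiUnion S hdisj).val).map ls.get := by
        rw [Finset.disjiUnion_val, Multiset.map_bind]
        rfl
      rw [e1]
      have e2 : (ls : Multiset ℕ) = (univ : Finset (Fin ls.length)).val.map ls.get := by
        rw [Fin.univ_val_map, List.ofFn_get]
      rw [e2]
      exact Multiset.map_le_map (Finset.val_le_iff.mpr (Finset.subset_univ _))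
  omega


theorem packing_nat {L : ℕ} (hL : 0 < L) (ls : List ℕ) (k : ℕ)
    (f : Fin (sizes L ls).length → Fin k) (hf : IsPacking (sizes L ls) k f) :
    ∃ g : Fin ls.length → Fin k,
      ∀ b : Fin k, (∑ i : Fin ls.length, if g i = b then ls.get i else 0) ≤ L := by
  have hlen : ls.length = (sizes L ls).length := by simp [sizes]
  refine ⟨fun i => f (Fin.cast hlen i), ?_⟩
  intro b
  have h1 := hf b
  have h2 : (∑ i : Fin (sizes L ls).length, if f i = b then (sizes L ls).get i else 0) =
      ∑ i : Fin ls.length, if f (Fin.cast hlen i) = b then ((ls.get i : ℕ) : ℚ) / L else 0 := by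
    rw [← Equiv.sum_comp (finCongr hlen)]
    apply Finset.sum_congr rfl
    intro i _
    simp only [sizes, List.get_eq_getElem, List.getElem_map]
    rfl
  rw [h2] at h1
  have h3 : (∑ i : Fin ls.length, if f (Fin.cast hlen i) = b then ((ls.get i : ℕ) : ℚ) / L else 0) =
      ((∑ i : Fin ls.length, if f (Fin.cast hlen i) = b then ls.get i else 0 : ℕ) : ℚ) / L := by
    rw [Nat.cast_sum, Finset.sum_div]
    apply Finset.sum_congr rfl
    intro i _
    split_ifs <;> simp
  rw [h3, div_le_one (by exact_mod_cast hL)] at h1
  exact_mod_cast h1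

theorem OPT_set_nonempty {L : ℕ} (hL : 0 < L) (ls : List ℕ) (hle : ∀ l ∈ ls, l ≤ L) :
    {k : ℕ | ∃ f : Fin (sizes L ls).length → Fin k, IsPacking (sizes L ls) k f}.Nonempty := by
  refine ⟨(sizes L ls).length, id, ?_⟩
  intro b
  simp only [id]
  rw [Finset.sum_ite_eq' Finset.univ b]
  simp only [Finset.mem_univ, if_true]
  have : (sizes L ls).get b ∈ sizes L ls := List.get_mem _ _
  obtain ⟨l, hl, h⟩ := List.mem_map.mp this
  rw [← h, div_le_one (by exact_mod_cast hL)]
  exact_mod_cast hle l hl

/-- lower bound for `OPT` of an instance all of whose sizes exceed `1/4`, from a failed search for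
`ν + 1` disjoint triples that fit into a bin. -/
theorem OPT_ge_of_search {L : ℕ} (hL : 0 < L) (ls : List ℕ) (hle : ∀ l ∈ ls, l ≤ L)
    (h4 : ∀ l ∈ ls, L < 4 * l) (ν K : ℕ) (hs : search L ls.length ls (ν + 1) = false)
    (hK : 2 * K + ν ≤ ls.length + 1) : K ≤ OPT (sizes L ls) := by
  apply le_csInf (OPT_set_nonempty hL ls hle)
  rintro k ⟨f, hf⟩
  obtain ⟨g, hg⟩ := packing_nat hL ls k f hf
  have hν : ¬ TriplePack L (ls : Multiset ℕ) (ν + 1) := by
    intro h
    have := search_complete L ls.length ls (ν + 1) le_rfl h
    rw [hs] at this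
    exact Bool.false_ne_true this
  have := bins_lower L ls h4 k g hg ν hν
  omega

end Vale.Agent.Lib.P302
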