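import Vale.Agent.Lib.P302.Framework

namespace Vale.Agent.Lib.P302

open Finset

/-- the multiset `s` of lengths can be split into `k` (possibly empty) bins of capacity `L` -/
def BinPack (L : ℕ) (s : Multiset ℕ) (k : ℕ) : Prop :=
  ∃ bs : Multiset (Multiset ℕ), Multiset.card bs = k ∧ (∀ b ∈ bs, b.sum ≤ L) ∧ bs.join = s

/-- choose the items that accompany the first item of a bin: `cap` is the free capacity of the
bin, `bud` the total length that may still be left to the other bins -/
def choose (cont : List ℕ → Bool) : ℕ → ℕ → List ℕ → List ℕ → Bool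
  | _, _, [], acc => cont acc.reverse
  | cap, bud, b :: rest, acc =>
    (decide (b ≤ cap) && choose cont (cap - b) bud rest acc) ||
      (decide (b ≤ bud) && choose cont cap (bud - b) rest (b :: acc))

/-- complete search for a packing into `k` bins (answer `true` when the fuel runs out) -/
def pack (L : ℕ) : ℕ → ℕ → List ℕ → Bool
  | _, _, [] => true
  | 0, _, _ :: _ => true
  | _ + 1, 0, _ :: _ => false
  | fuel + 1, k + 1, a :: rest =>
    decide (a ≤ L) && choose (pack L fuel k) (L - a) (k * L) rest []

theorem choose_complete (cont : List ℕ → Bool) : ∀ (rest : List ℕ) (cap bud : ℕ) (acc : List ℕ)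
    (b' : Multiset ℕ), b' ≤ (rest : Multiset ℕ) → b'.sum ≤ cap →
    ((rest : Multiset ℕ) - b').sum ≤ bud →
    (∀ l : List ℕ, (l : Multiset ℕ) = ((rest : Multiset ℕ) - b') + (acc : Multiset ℕ) →
      cont l = true) → choose cont cap bud rest acc = true := by
  intro rest
  induction rest with
  | nil =>
    intro cap bud acc b' hb _ _ hc
    rw [choose]
    apply hc
    have : b' = 0 := by simpa using hb
    subst this
    simp
  | cons x rest ih =>
    intro cap bud acc b' hb hs hbud hc
    rw [choose]
    simp only [Bool.or_eq_true, Bool.and_eq_true, decide_eq_true_eq]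
    by_cases hx : x ∈ b'
    · left
      obtain ⟨b'', rfl⟩ := Multiset.exists_cons_of_mem hx
      rw [Multiset.sum_cons] at hs
      rw [← Multiset.cons_coe, Multiset.cons_le_cons_iff] at hb
      have e : (x ::ₘ (rest : Multiset ℕ)) - (x ::ₘ b'') = (rest : Multiset ℕ) - b'' := by
        rw [Multiset.sub_cons, Multiset.erase_cons_head]
      rw [← Multiset.cons_coe, e] at hbud
      refine ⟨by omega, ih (cap - x) bud acc b'' hb (by omega) hbud ?_⟩
      intro l hl
      apply hc
      rw [← Multiset.cons_coe, e]
      exact hl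
    · right
      rw [← Multiset.cons_coe] at hb hbud
      have hb2 : b' ≤ (rest : Multiset ℕ) := (Multiset.le_cons_of_notMem hx).mp hb
      have e : (x ::ₘ (rest : Multiset ℕ)) - b' = x ::ₘ ((rest : Multiset ℕ) - b') := by
        have h1 : x ::ₘ (rest : Multiset ℕ) = ({x} : Multiset ℕ) + rest := by simp
        rw [h1, add_tsub_assoc_of_le hb2]
        simp
      rw [e, Multiset.sum_cons] at hbud
      refine ⟨by omega, ih cap (bud - x) (x :: acc) b' hb2 hs (by omega) ?_⟩
      intro l hl
      apply hc
      rw [← Multiset.cons_coe, e, hl, ← Multiset.cons_coe, Multiset.add_cons, Multiset.cons_add]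

theorem BinPack.sum_le {L : ℕ} {s : Multiset ℕ} {k : ℕ} (h : BinPack L s k) : s.sum ≤ k * L := by
  obtain ⟨bs, h1, h2, rfl⟩ := h
  rw [Multiset.sum_join, ← h1]
  have := Multiset.sum_le_card_nsmul (bs.map Multiset.sum) L (by
    intro x hx
    obtain ⟨b, hb, rfl⟩ := Multiset.mem_map.mp hx
    exact h2 b hb)
  simpa using this

theorem pack_complete (L : ℕ) : ∀ (fuel k : ℕ) (ls : List ℕ),
    BinPack L (ls : Multiset ℕ) k → pack L fuel k ls = true := by
  intro fuel
  induction fuel with
  | zero =>
    intro k ls _
    cases ls <;> simp [pack]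
  | succ fuel ih =>
    intro k ls h
    match ls, k with
    | [], k => simp [pack]
    | a :: rest, 0 =>
      exfalso
      obtain ⟨bs, h1, _, h3⟩ := h
      rw [Multiset.card_eq_zero] at h1
      subst h1
      rw [Multiset.join_zero, ← Multiset.cons_coe] at h3
      exact Multiset.zero_ne_cons h3
    | a :: rest, k + 1 =>
      obtain ⟨bs, h1, h2, h3⟩ := h
      have ha : a ∈ bs.join := by rw [h3]; simp
      rw [Multiset.mem_join] at ha
      obtain ⟨b, hb, hab⟩ := ha
      obtain ⟨bs', rfl⟩ := Multiset.exists_cons_of_mem hb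
      obtain ⟨b', rfl⟩ := Multiset.exists_cons_of_mem hab
      have hsum := h2 _ (Multiset.mem_cons_self _ _)
      rw [Multiset.sum_cons] at hsum
      rw [Multiset.join_cons, ← Multiset.cons_coe, Multiset.cons_add,
        Multiset.cons_inj_right] at h3
      rw [Multiset.card_cons] at h1
      have hrest : BinPack L bs'.join k :=
        ⟨bs', by omega, fun t ht => h2 t (Multiset.mem_cons_of_mem ht), rfl⟩
      have e : (rest : Multiset ℕ) - b' = bs'.join := by
        rw [← h3]; simp
      rw [pack]
      simp only [Bool.and_eq_true, decide_eq_true_eq]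
      refine ⟨by omega, choose_complete _ rest (L - a) (k * L) [] b' ?_ (by omega) ?_ ?_⟩
      · rw [← h3]; exact Multiset.le_add_right _ _
      · rw [e]; exact hrest.sum_le
      · intro l hl
        apply ih
        rw [hl, e]
        simpa using hrest

theorem BinPack.mono {L : ℕ} {s : Multiset ℕ} {k k' : ℕ} (h : BinPack L s k) (hk : k ≤ k') :
    BinPack L s k' := by
  obtain ⟨bs, h1, h2, h3⟩ := h
  refine ⟨bs + Multiset.replicate (k' - k) 0, ?_, ?_, ?_⟩
  · rw [Multiset.card_add, Multiset.card_replicate]; omega
  · intro b hb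
    rw [Multiset.mem_add] at hb
    rcases hb with hb | hb
    · exact h2 b hb
    · rw [Multiset.eq_of_mem_replicate hb]; simp
  · rw [Multiset.join_add, h3]
    have : (Multiset.replicate (k' - k) (0 : Multiset ℕ)).join = 0 := by
      rw [Multiset.join, Multiset.sum_replicate]; simp
    rw [this, add_zero]

theorem binPack_of_fun (L : ℕ) (ls : List ℕ) (k : ℕ) (g : Fin ls.length → Fin k)
    (hg : ∀ b : Fin k, (∑ i : Fin ls.length, if g i = b then ls.get i else 0) ≤ L) :
    BinPack L (ls : Multiset ℕ) k := by
  classical
  let S : Fin k → Finset (Fin ls.length) := fun b => univ.filter (fun i => g i = b)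
  have hsum : ∀ b, ∑ i ∈ S b, ls.get i ≤ L := by
    intro b
    have := hg b
    rwa [← Finset.sum_filter] at this
  refine ⟨(univ : Finset (Fin k)).val.map (fun b => (S b).val.map ls.get), ?_, ?_, ?_⟩
  · simp
  · intro t ht
    rw [Multiset.mem_map] at ht
    obtain ⟨b, _, rfl⟩ := ht
    exact hsum b
  · have hdisj : ((univ : Finset (Fin k)) : Set (Fin k)).PairwiseDisjoint S := by
      intro b _ b' _ hbb'
      rw [Function.onFun, Finset.disjoint_left]
      intro i hi hi'
      exact hbb' ((Finset.mem_filter.mp hi).2.symm.trans (Finset.mem_filter.mp hi').2)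
    have e1 : ((univ : Finset (Fin k)).val.map (fun b => (S b).val.map ls.get)).join =
        (((univ : Finset (Fin k)).disjiUnion S hdisj).val).map ls.get := by
      rw [Finset.disjiUnion_val, Multiset.map_bind]
      rfl
    have e3 : (univ : Finset (Fin k)).disjiUnion S hdisj = (univ : Finset (Fin ls.length)) := by
      ext i
      simp [S]
    have e2 : (ls : Multiset ℕ) = (univ : Finset (Fin ls.length)).val.map ls.get := by
      rw [Fin.univ_val_map, List.ofFn_get]
    rw [e1, e3, e2]

/-- lower bound for `OPT` of an arbitrary instance from a failed complete search -/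
theorem OPT_ge_of_pack {L : ℕ} (hL : 0 < L) (ls : List ℕ) (hle : ∀ l ∈ ls, l ≤ L) (K fuel : ℕ)
    (hs : pack L fuel K ls = false) : K + 1 ≤ OPT (sizes L ls) := by
  apply le_csInf (OPT_set_nonempty hL ls hle)
  rintro k ⟨f, hf⟩
  obtain ⟨g, hg⟩ := packing_nat hL ls k f hf
  by_contra hcon
  have hk : k ≤ K := by omega
  have := pack_complete L fuel K ls ((binPack_of_fun L ls k g hg).mono hk)
  rw [hs] at this
  exact Bool.false_ne_true this

end Vale.Agent.Lib.P302
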