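import Vale.Agent.Lib.P302.Typed
import Vale.Agent.Lib.P302.Cut

namespace Vale.Agent.Lib.P302

theorem countP_join_eq_card (p : ℕ → Prop) [DecidablePred p] (ts : Multiset (Multiset ℕ)) :
    (∀ t ∈ ts, Multiset.countP p t = 1) → Multiset.countP p ts.join = Multiset.card ts := by
  induction ts using Multiset.induction_on with
  | empty => intro _; simp
  | cons t ts ih =>
    intro h
    rw [Multiset.join_cons, Multiset.countP_add, Multiset.card_cons,
      h t (Multiset.mem_cons_self _ _), ih (fun u hu => h u (Multiset.mem_cons_of_mem hu))]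
    omega

theorem countP_join_eq_zero (p : ℕ → Prop) [DecidablePred p] (ts : Multiset (Multiset ℕ)) :
    (∀ t ∈ ts, ∀ a ∈ t, ¬ p a) → Multiset.countP p ts.join = 0 := by
  intro h
  rw [Multiset.countP_eq_zero]
  intro a ha
  obtain ⟨t, ht, hat⟩ := Multiset.mem_join.mp ha
  exact h t ht a hat

theorem countP_join_le (q : ℕ → Prop) [DecidablePred q] (ts : Multiset (Multiset ℕ)) :
    (∀ b ∈ ts, Multiset.countP q b ≤ 1 ∨ (Multiset.countP q b ≤ 2 ∧ Multiset.card b = 3)) →
    Multiset.countP q ts.join ≤
      Multiset.card ts + Multiset.card (ts.filter (fun b => Multiset.card b = 3)) := by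
  induction ts using Multiset.induction_on with
  | empty => intro _; simp
  | cons t ts ih =>
    intro h
    have h1 := ih (fun u hu => h u (Multiset.mem_cons_of_mem hu))
    rw [Multiset.join_cons, Multiset.countP_add, Multiset.card_cons]
    rcases h t (Multiset.mem_cons_self _ _) with h2 | ⟨h2, h3⟩
    · have : Multiset.card (ts.filter (fun b => Multiset.card b = 3)) ≤
          Multiset.card ((t ::ₘ ts).filter (fun b => Multiset.card b = 3)) :=
        Multiset.card_le_card (Multiset.filter_le_filter _ (Multiset.le_cons_self _ _))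
      omega
    · rw [Multiset.filter_cons_of_pos (p := fun b => Multiset.card b = 3) _ h3,
        Multiset.card_cons]
      omega

/-- Spacers, middle items and short items.  Next to a spacer only short items fit, at most two of
them.  If at most `α` spacers can receive two short items each, then at least
`card sm - card sp - α` short items have to be packed together with the middle items. -/
theorem hybrid (L : ℕ) (sp tops sm : Multiset ℕ) (σ τ μ lam α NC B : ℕ)
    (hsp : ∀ a ∈ sp, σ ≤ a) (htop : ∀ a ∈ tops, τ ≤ a ∧ a < σ)
    (hsm : ∀ a ∈ sm, lam ≤ a ∧ a ≤ μ) (hμτ : μ < τ) (hτσ : τ ≤ σ)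
    (h1 : L < 2 * σ) (h2 : L < σ + τ) (h3 : L < σ + 3 * lam)
    (hfill : ¬ FillPack L sp sm (α + 1))
    (hcore : ¬ BinPack L (tops + Multiset.replicate NC lam) B)
    (hN : Multiset.card sp + α + NC ≤ Multiset.card sm) :
    ¬ BinPack L (sp + (tops + sm)) (Multiset.card sp + B) := by
  classical
  rintro ⟨bs, hb1, hb2, hb3⟩
  let pS : ℕ → Prop := fun a => σ ≤ a
  let q : ℕ → Prop := fun a => a ≤ μ
  let bsS := bs.filter (fun b => ∃ a ∈ b, σ ≤ a)
  let bsR := bs.filter (fun b => ¬ ∃ a ∈ b, σ ≤ a)
  have hsplit : bsS + bsR = bs := Multiset.filter_add_not _ _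
  have hjoin : bsS.join + bsR.join = sp + (tops + sm) := by
    rw [← Multiset.join_add, hsplit, hb3]
  have hcards : Multiset.card bsS + Multiset.card bsR = Multiset.card sp + B := by
    rw [← Multiset.card_add, hsplit, hb1]
  -- structure of the bins with a spacer
  have hstruct : ∀ b ∈ bsS, ∃ s r, b = s ::ₘ r ∧ σ ≤ s ∧ (∀ a ∈ r, lam ≤ a ∧ a ≤ μ) ∧
      Multiset.card r ≤ 2 := by
    intro b hb
    obtain ⟨hbbs, s, hs, hσ⟩ := Multiset.mem_filter.mp hb
    obtain ⟨r, rfl⟩ := Multiset.exists_cons_of_mem hs
    have hsum := hb2 _ hbbs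
    rw [Multiset.sum_cons] at hsum
    have hr : ∀ a ∈ r, lam ≤ a ∧ a ≤ μ := by
      intro a ha
      have hle : a ≤ r.sum := Multiset.le_sum_of_mem ha
      have hmem : a ∈ sp + (tops + sm) := by
        rw [← hb3]
        exact Multiset.mem_join.mpr ⟨_, hbbs, Multiset.mem_cons_of_mem ha⟩
      rcases Multiset.mem_add.mp hmem with h | h
      · have := hsp a h
        omega
      · rcases Multiset.mem_add.mp h with h | h
        · have := (htop a h).1
          omega
        · exact hsm a h
    refine ⟨s, r, rfl, hσ, hr, ?_⟩
    by_contra hcon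
    have hc : Multiset.card r • lam ≤ r.sum :=
      Multiset.card_nsmul_le_sum (fun x hx => (hr x hx).1)
    rw [smul_eq_mul] at hc
    have : 3 * lam ≤ Multiset.card r * lam := Nat.mul_le_mul_right _ (by omega)
    omega
  have hone : ∀ b ∈ bsS, Multiset.countP pS b = 1 := by
    intro b hb
    obtain ⟨s, r, rfl, hσ, hr, _⟩ := hstruct b hb
    rw [Multiset.countP_cons_of_pos (p := pS) _ hσ]
    have : Multiset.countP pS r = 0 := by
      rw [Multiset.countP_eq_zero]
      intro a ha hpa
      have := (hr a ha).2
      have hpa' : σ ≤ a := hpa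
      omega
    omega
  have hq : ∀ b ∈ bsS, Multiset.countP q b ≤ 1 ∨
      (Multiset.countP q b ≤ 2 ∧ Multiset.card b = 3) := by
    intro b hb
    obtain ⟨s, r, rfl, hσ, hr, hc⟩ := hstruct b hb
    have hns : ¬ q s := by
      intro hqs
      have hqs' : s ≤ μ := hqs
      omega
    rw [Multiset.countP_cons_of_neg (p := q) _ hns, Multiset.card_cons]
    have := Multiset.countP_le_card q r
    omega
  -- counting the spacers
  have hcS : Multiset.countP pS (sp + (tops + sm)) = Multiset.card sp := by
    have z1 : Multiset.countP pS tops = 0 := by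
      rw [Multiset.countP_eq_zero]
      intro a ha hpa
      have := (htop a ha).2
      have hpa' : σ ≤ a := hpa
      omega
    have z2 : Multiset.countP pS sm = 0 := by
      rw [Multiset.countP_eq_zero]
      intro a ha hpa
      have := (hsm a ha).2
      have hpa' : σ ≤ a := hpa
      omega
    rw [Multiset.countP_add, Multiset.countP_add, Multiset.countP_eq_card.mpr hsp, z1, z2]
    omega
  have hRno : ∀ t ∈ bsR, ∀ a ∈ t, ¬ pS a := by
    intro t ht a ha hpa
    exact (Multiset.mem_filter.mp ht).2 ⟨a, ha, hpa⟩
  have hPS : Multiset.card bsS = Multiset.card sp := by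
    have := congrArg (Multiset.countP pS) hjoin
    rw [Multiset.countP_add, countP_join_eq_card pS bsS hone, countP_join_eq_zero pS bsR hRno,
      hcS] at this
    omega
  -- the spacers with two short items
  let ts3 := bsS.filter (fun b => Multiset.card b = 3)
  have hts3 : Multiset.card ts3 ≤ α := by
    by_contra hcon
    obtain ⟨us, u1, u2, u3, u4⟩ := split_family L pS ts3 (fun t ht => by
      obtain ⟨htS, hc3⟩ := Multiset.mem_filter.mp ht
      exact ⟨hc3, hb2 t (Multiset.mem_of_mem_filter htS), hone t htS⟩)
    have hle3 : ts3.join ≤ sp + (tops + sm) := by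
      rw [← hjoin]
      refine le_trans ?_ (Multiset.le_add_right _ _)
      obtain ⟨w, hw⟩ := Multiset.le_iff_exists_add.mp (Multiset.filter_le
        (fun b => Multiset.card b = 3) bsS)
      rw [hw, Multiset.join_add]
      exact Multiset.le_add_right _ _
    have hF : FillPack L sp sm (Multiset.card ts3) := by
      refine ⟨us, u1, u2, ?_, ?_⟩
      · rw [u3]
        have := Multiset.filter_le_filter pS hle3
        have e : (sp + (tops + sm)).filter pS = sp := by
          have z1 : tops.filter pS = 0 := by
            rw [Multiset.filter_eq_nil]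
            intro a ha hpa
            have := (htop a ha).2
            have hpa' : σ ≤ a := hpa
            omega
          have z2 : sm.filter pS = 0 := by
            rw [Multiset.filter_eq_nil]
            intro a ha hpa
            have := (hsm a ha).2
            have hpa' : σ ≤ a := hpa
            omega
          rw [Multiset.filter_add, Multiset.filter_add, Multiset.filter_eq_self.mpr hsp,
            z1, z2, add_zero, add_zero]
        rwa [e] at this
      · rw [u4]
        -- the guests are short
        have hall : ∀ a ∈ ts3.join.filter (fun a => ¬ pS a), q a := by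
          intro a ha
          obtain ⟨haj, hna⟩ := Multiset.mem_filter.mp ha
          obtain ⟨t, ht, hat⟩ := Multiset.mem_join.mp haj
          obtain ⟨s, r, rfl, hσ, hr, _⟩ := hstruct t (Multiset.mem_of_mem_filter ht)
          rcases Multiset.mem_cons.mp hat with rfl | har
          · exact absurd hσ hna
          · exact (hr a har).2
        have h5 : ts3.join.filter (fun a => ¬ pS a) ≤ sp + (tops + sm) :=
          le_trans (Multiset.filter_le _ _) hle3
        have h6 := Multiset.filter_le_filter q h5
        rw [Multiset.filter_eq_self.mpr hall] at h6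
        have e : (sp + (tops + sm)).filter q = sm := by
          have z1 : tops.filter q = 0 := by
            rw [Multiset.filter_eq_nil]
            intro a ha hqa
            have := (htop a ha).1
            have hqa' : a ≤ μ := hqa
            omega
          have z2 : sp.filter q = 0 := by
            rw [Multiset.filter_eq_nil]
            intro a ha hqa
            have := hsp a ha
            have hqa' : a ≤ μ := hqa
            omega
          rw [Multiset.filter_add, Multiset.filter_add,
            Multiset.filter_eq_self.mpr (fun a ha => (hsm a ha).2), z1, z2, zero_add, zero_add]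
        rwa [e] at h6
    exact hfill (hF.le _ (by omega))
  -- counting the short items
  have hqS : Multiset.countP q bsS.join ≤ Multiset.card sp + α := by
    have := countP_join_le q bsS hq
    have e0 : Multiset.card (bsS.filter (fun b => Multiset.card b = 3)) = Multiset.card ts3 := rfl
    omega
  have hqAll : Multiset.countP q (sp + (tops + sm)) = Multiset.card sm := by
    have z1 : Multiset.countP q tops = 0 := by
      rw [Multiset.countP_eq_zero]
      intro a ha hqa
      have := (htop a ha).1
      have hqa' : a ≤ μ := hqa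
      omega
    have z2 : Multiset.countP q sp = 0 := by
      rw [Multiset.countP_eq_zero]
      intro a ha hqa
      have := hsp a ha
      have hqa' : a ≤ μ := hqa
      omega
    rw [Multiset.countP_add, Multiset.countP_add,
      Multiset.countP_eq_card.mpr (fun a ha => (hsm a ha).2), z1, z2]
    omega
  have hqR : NC ≤ Multiset.countP q bsR.join := by
    have := congrArg (Multiset.countP q) hjoin
    rw [Multiset.countP_add, hqAll] at this
    omega
  -- the middle items all lie in the other bins
  have htopsR : bsR.join.filter (fun a => ¬ q a) = tops := by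
    have h7 := congrArg (Multiset.filter (fun a => ¬ q a ∧ ¬ pS a)) hjoin
    rw [Multiset.filter_add, Multiset.filter_add, Multiset.filter_add] at h7
    have e1 : bsS.join.filter (fun a => ¬ q a ∧ ¬ pS a) = 0 := by
      rw [Multiset.filter_eq_nil]
      rintro a ha ⟨hnq, hnp⟩
      obtain ⟨t, ht, hat⟩ := Multiset.mem_join.mp ha
      obtain ⟨s, r, rfl, hσ, hr, _⟩ := hstruct t ht
      rcases Multiset.mem_cons.mp hat with rfl | har
      · exact hnp hσ
      · exact hnq (hr a har).2
    have e2 : sp.filter (fun a => ¬ q a ∧ ¬ pS a) = 0 := by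
      rw [Multiset.filter_eq_nil]
      rintro a ha ⟨_, hnp⟩
      exact hnp (hsp a ha)
    have e3 : sm.filter (fun a => ¬ q a ∧ ¬ pS a) = 0 := by
      rw [Multiset.filter_eq_nil]
      rintro a ha ⟨hnq, _⟩
      exact hnq (hsm a ha).2
    have e4 : tops.filter (fun a => ¬ q a ∧ ¬ pS a) = tops := by
      rw [Multiset.filter_eq_self]
      intro a ha
      constructor
      · intro hqa
        have := (htop a ha).1
        have hqa' : a ≤ μ := hqa
        omega
      · intro hpa
        have := (htop a ha).2
        have hpa' : σ ≤ a := hpa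
        omega
    have e5 : bsR.join.filter (fun a => ¬ q a ∧ ¬ pS a) = bsR.join.filter (fun a => ¬ q a) := by
      apply Multiset.filter_congr
      intro a ha
      obtain ⟨t, ht, hat⟩ := Multiset.mem_join.mp ha
      constructor
      · exact fun h => h.1
      · exact fun h => ⟨h, hRno t ht a hat⟩
    rw [e1, e2, e3, e4, e5, zero_add, zero_add, add_zero] at h7
    exact h7
  -- conclusion
  have hBR : BinPack L bsR.join (Multiset.card bsR) :=
    ⟨bsR, rfl, fun b hb => hb2 b (Multiset.mem_of_mem_filter hb), rfl⟩
  have hBR' : BinPack L bsR.join B := by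
    have : Multiset.card bsR = B := by omega
    rwa [this] at hBR
  have hlam : ∀ a ∈ bsR.join, q a → lam ≤ a := by
    intro a ha hqa
    have hmem : a ∈ sp + (tops + sm) := by
      rw [← hjoin]
      exact Multiset.mem_add.mpr (Or.inr ha)
    have hqa' : a ≤ μ := hqa
    rcases Multiset.mem_add.mp hmem with h | h
    · have := hsp a h
      omega
    · rcases Multiset.mem_add.mp h with h | h
      · have := (htop a h).1
        omega
      · exact (hsm a h).1
  -- shrink the short items to `lam`
  have hmap : BinPack L (bsR.join.map (fun l => if q l then min lam l else l)) B :=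
    hBR'.map_le _ (fun x => by
      split_ifs
      · exact min_le_right _ _
      · exact le_rfl)
  have e6 : bsR.join.map (fun l => if q l then min lam l else l) =
      bsR.join.map (fun l => if q l then lam else l) := by
    apply Multiset.map_congr rfl
    intro a ha
    by_cases hqa : q a
    · rw [if_pos hqa, if_pos hqa, min_eq_left (hlam a ha hqa)]
    · rw [if_neg hqa, if_neg hqa]
  rw [e6, map_ite_eq q lam, htopsR, ← Multiset.countP_eq_card_filter] at hmap
  apply hcore
  apply hmap.of_le
  rw [add_comm]
  exact add_le_add_left ((Multiset.replicate_le_replicate _).mpr hqR) _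

/-- list form of `hybrid` -/
theorem hybrid_list (L : ℕ) (sp tops sm : List ℕ) (σ τ μ lam α NC B : ℕ)
    (hsp : ∀ a ∈ sp, σ ≤ a) (htop : ∀ a ∈ tops, τ ≤ a ∧ a < σ)
    (hsm : ∀ a ∈ sm, lam ≤ a ∧ a ≤ μ)
    (hnum : μ < τ ∧ τ ≤ σ ∧ L < 2 * σ ∧ L < σ + τ ∧ L < σ + 3 * lam)
    (hfill : ¬ FillPack L (sp : Multiset ℕ) (sm : Multiset ℕ) (α + 1))
    (hcore : ¬ BinPack L ((tops ++ List.replicate NC lam : List ℕ) : Multiset ℕ) B)
    (hN : sp.length + α + NC ≤ sm.length) :
    ¬ BinPack L ((sp ++ (tops ++ sm) : List ℕ) : Multiset ℕ) (sp.length + B) := by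
  obtain ⟨n1, n2, n3, n4, n5⟩ := hnum
  have := hybrid L (sp : Multiset ℕ) (tops : Multiset ℕ) (sm : Multiset ℕ) σ τ μ lam α NC B
    (by simpa using hsp) (by simpa using htop) (by simpa using hsm) n1 n2 n3 n4 n5 hfill
    (by rwa [← Multiset.coe_add, Multiset.coe_replicate] at hcore) (by simpa using hN)
  rwa [Multiset.coe_add, Multiset.coe_add, Multiset.coe_card] at this

/-- lower bound for `OPT` from the impossibility of a packing -/
theorem OPT_ge_of_noBinPack {L : ℕ} (hL : 0 < L) (ls : List ℕ) (hle : ∀ l ∈ ls, l ≤ L) (K : ℕ)
    (hs : ¬ BinPack L (ls : Multiset ℕ) K) : K + 1 ≤ OPT (sizes L ls) := by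
  apply le_csInf (OPT_set_nonempty hL ls hle)
  rintro k ⟨f, hf⟩
  obtain ⟨g, hg⟩ := packing_nat hL ls k f hf
  by_contra hcon
  have hk : k ≤ K := by omega
  exact hs ((binPack_of_fun L ls k g hg).mono hk)

end Vale.Agent.Lib.P302
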