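import Vale.Agent.Lib.P302.Hybrid

namespace Vale.Agent.Lib.P302

/-- variant of `wrapT_list`: the case in which the inner gadget is used as much as possible is
supplied as a hypothesis (it is proved by a further reduction), the other cases are searched -/
theorem wrapT_top (L : ℕ) (yB yI hO1 hO2 gO : List ℕ) (βlo βhi ιlo ιhi βh αI m mt k : ℕ)
    (hyB : ∀ b ∈ yB, βlo ≤ b ∧ b ≤ βhi) (hyI : ∀ i ∈ yI, ιlo ≤ i ∧ i ≤ ιhi)
    (hhO : ∀ h ∈ hO1 ++ hO2, ¬ (βlo ≤ h ∧ h ≤ βhi)) (hgO : ∀ g ∈ gO, ¬ (ιlo ≤ g ∧ g ≤ ιhi))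
    (hmargin : ∀ o ∈ gO, ∀ g ∈ ιlo :: gO, βlo + o + g ≤ L → βh + o + g ≤ L)
    (hinner : ¬ FillPack L (yB : Multiset ℕ) (yI : Multiset ℕ) (αI + 1))
    (hα : αI ≤ yB.length)
    (hk : hO1.length + hO2.length + yB.length ≤ m + k)
    (hm : m = mt + αI)
    (houter : ∀ c < αI, fsearch L (hO1 ++ (List.replicate (yB.length - c) βh ++ hO2))
      (List.replicate (yI.length - 2 * c) ιlo ++ gO) k = false)
    (htop : ¬ FillPack L
      ((hO1 ++ (List.replicate (yB.length - αI) βh ++ hO2) : List ℕ) : Multiset ℕ)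
      ((List.replicate (yI.length - 2 * αI) ιlo ++ gO : List ℕ) : Multiset ℕ) mt) :
    ¬ FillPack L ((yB ++ (hO1 ++ hO2) : List ℕ) : Multiset ℕ) ((yI ++ gO : List ℕ) : Multiset ℕ)
      m := by
  rw [← Multiset.coe_add, ← Multiset.coe_add]
  apply wrapT L yB yI ((hO1 ++ hO2 : List ℕ) : Multiset ℕ) gO βlo βhi ιlo ιhi βh αI m
  · intro b hb; exact hyB b (by simpa using hb)
  · intro b hb; exact hyI b (by simpa using hb)
  · intro b hb; exact hhO b (by simpa using hb)
  · intro b hb; exact hgO b (by simpa using hb)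
  · intro o ho g hg
    exact hmargin o (by simpa using ho) g (by simpa using hg)
  · exact hinner
  · intro c hc hF
    have e1 : ((hO1 ++ (List.replicate (yB.length - c) βh ++ hO2) : List ℕ) : Multiset ℕ) =
        Multiset.replicate (yB.length - c) βh + ((hO1 ++ hO2 : List ℕ) : Multiset ℕ) := by
      rw [← Multiset.coe_add, ← Multiset.coe_add, ← Multiset.coe_add, Multiset.coe_replicate,
        add_left_comm]
    have e2 : ((List.replicate (yI.length - 2 * c) ιlo ++ gO : List ℕ) : Multiset ℕ) =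
        Multiset.replicate (yI.length - 2 * c) ιlo + (gO : Multiset ℕ) := by
      rw [← Multiset.coe_add, Multiset.coe_replicate]
    rcases Nat.lt_or_ge c αI with hlt | hge
    · have hlen : (hO1 ++ (List.replicate (yB.length - c) βh ++ hO2)).length ≤ (m - c) + k := by
        simp only [List.length_append, List.length_replicate]
        omega
      apply noFill_of_fsearch _ _ k (m - c) hlen (houter c hlt)
      rw [e1, e2]
      simpa using hF
    · have hc' : c = αI := le_antisymm hc hge
      subst hc'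
      apply htop
      rw [e1, e2]
      have : m - c = mt := by omega
      rw [← this]
      simpa using hF

theorem noFill_perm {L m : ℕ} {H H' G G' : List ℕ}
    (h : ¬ FillPack L (H : Multiset ℕ) (G : Multiset ℕ) m) (hH : H'.Perm H) (hG : G'.Perm G) :
    ¬ FillPack L (H' : Multiset ℕ) (G' : Multiset ℕ) m := by
  rw [Multiset.coe_eq_coe.mpr hH, Multiset.coe_eq_coe.mpr hG]
  exact h

end Vale.Agent.Lib.P302
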