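import Vale.Agent.Lib.P302.Wrap

namespace Vale.Agent.Lib.P302

/-- `m` different hosts from `H` each receive two guests from `G` (all guests different), every
host together with its two guests having total length at most `L`. -/
def FillPack (L : ℕ) (H G : Multiset ℕ) (m : ℕ) : Prop :=
  ∃ ts : Multiset (ℕ × ℕ × ℕ), Multiset.card ts = m ∧
    (∀ t ∈ ts, t.1 + t.2.1 + t.2.2 ≤ L) ∧
    ts.map (fun t => t.1) ≤ H ∧
    ts.map (fun t => t.2.1) + ts.map (fun t => t.2.2) ≤ G

theorem FillPack.mono {L : ℕ} {H G H' G' : Multiset ℕ} {m : ℕ} (h : FillPack L H G m)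
    (hH : H ≤ H') (hG : G ≤ G') : FillPack L H' G' m := by
  obtain ⟨ts, h1, h2, h3, h4⟩ := h
  exact ⟨ts, h1, h2, le_trans h3 hH, le_trans h4 hG⟩

theorem FillPack.pred {L : ℕ} {H G : Multiset ℕ} {m : ℕ} (h : FillPack L H G (m + 1)) :
    FillPack L H G m := by
  obtain ⟨ts, h1, h2, h3, h4⟩ := h
  obtain ⟨t, ts', rfl, hc⟩ := Multiset.card_eq_succ_iff.mp h1
  refine ⟨ts', hc, fun u hu => h2 u (Multiset.mem_cons_of_mem hu), ?_, ?_⟩
  · rw [Multiset.map_cons] at h3
    exact le_trans (Multiset.le_cons_self _ _) h3
  · rw [Multiset.map_cons, Multiset.map_cons] at h4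
    refine le_trans ?_ h4
    exact add_le_add (Multiset.le_cons_self _ _) (Multiset.le_cons_self _ _)

theorem FillPack.le {L : ℕ} {H G : Multiset ℕ} {m : ℕ} (h : FillPack L H G m) :
    ∀ m' ≤ m, FillPack L H G m' := by
  induction m with
  | zero =>
    intro m' hm'
    obtain rfl : m' = 0 := by omega
    exact h
  | succ k ih =>
    intro m' hm'
    rcases Nat.lt_or_ge k m' with h' | h'
    · obtain rfl : m' = k + 1 := by omega
      exact h
    · exact ih h.pred m' h'

/-- evaluates the list before handing it on (only matters for the speed of kernel evaluation) -/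
def force : List ℕ → (List ℕ → Bool) → Bool
  | [], k => k []
  | a :: t, k => force t (fun t' => k (a :: t'))

theorem force_eq : ∀ (l : List ℕ) (k : List ℕ → Bool), force l k = k l
  | [], _ => rfl
  | a :: t, k => by rw [force, force_eq t]

/-- depth-first search: every host of the list, up to `k` exceptions, has to receive two guests -/
def fsearch (L : ℕ) : List ℕ → List ℕ → ℕ → Bool
  | [], _, _ => true
  | h :: hs, gs, k =>
    (Nat.blt 0 k && fsearch L hs gs (k - 1)) ||
      force (dd gs) (fun d => d.any (fun y => d.any (fun z =>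
        Nat.ble z y && Nat.ble (h + y + z) L && (!(Nat.beq z y) || Nat.ble 2 (gs.count y)) &&
          force ((gs.erase y).erase z) (fun gs' => fsearch L hs gs' k))))

theorem pair_le {a b : ℕ} {r : Multiset ℕ} {gs : List ℕ}
    (h : a ::ₘ b ::ₘ r ≤ (gs : Multiset ℕ)) :
    a ∈ gs ∧ b ∈ gs.erase a ∧ r ≤ (((gs.erase a).erase b : List ℕ) : Multiset ℕ) := by
  have ha : a ∈ gs := by
    have : a ∈ (gs : Multiset ℕ) := Multiset.mem_of_le h (Multiset.mem_cons_self _ _)
    simpa using this
  have h1 : b ::ₘ r ≤ ((gs.erase a : List ℕ) : Multiset ℕ) := by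
    rw [← Multiset.coe_erase]
    have := Multiset.erase_le_erase a h
    rwa [Multiset.erase_cons_head] at this
  have hb : b ∈ gs.erase a := by
    have : b ∈ ((gs.erase a : List ℕ) : Multiset ℕ) :=
      Multiset.mem_of_le h1 (Multiset.mem_cons_self _ _)
    simpa using this
  refine ⟨ha, hb, ?_⟩
  rw [← Multiset.coe_erase]
  have := Multiset.erase_le_erase b h1
  rwa [Multiset.erase_cons_head] at this

theorem fsearch_complete (L : ℕ) : ∀ (hs gs : List ℕ) (k m : ℕ),
    FillPack L (hs : Multiset ℕ) (gs : Multiset ℕ) m → hs.length ≤ m + k →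
    fsearch L hs gs k = true := by
  intro hs
  induction hs with
  | nil => intro gs k m _ _; simp [fsearch]
  | cons h hs ih =>
    intro gs k m hF hlen
    obtain ⟨ts, h1, h2, h3, h4⟩ := hF
    rw [fsearch]
    simp only [force_eq]
    simp only [List.length_cons] at hlen
    simp only [Bool.and_eq_true, Nat.ble_eq, Bool.or_eq_true, List.any_eq_true, Nat.blt_eq]
    by_cases hx : ts.map (fun t => t.1) ≤ (hs : Multiset ℕ)
    · left
      have hc : m ≤ hs.length := by
        have := Multiset.card_le_card hx
        rw [Multiset.card_map, h1, Multiset.coe_card] at this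
        exact this
      exact ⟨by omega, ih gs (k - 1) m ⟨ts, h1, h2, hx, h4⟩ (by omega)⟩
    · right
      have hmem : h ∈ ts.map (fun t => t.1) := by
        by_contra hcon
        apply hx
        rw [← Multiset.cons_coe] at h3
        exact (Multiset.le_cons_of_notMem hcon).mp h3
      rw [Multiset.mem_map] at hmem
      obtain ⟨t, ht, hth⟩ := hmem
      obtain ⟨ts', rfl⟩ := Multiset.exists_cons_of_mem ht
      obtain ⟨h', a, b⟩ := t
      simp only at hth
      subst hth
      have hsum := h2 (h', a, b) (Multiset.mem_cons_self _ _)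
      simp only at hsum
      rw [Multiset.map_cons, ← Multiset.cons_coe, Multiset.cons_le_cons_iff] at h3
      rw [Multiset.map_cons, Multiset.map_cons, Multiset.cons_add, Multiset.add_cons] at h4
      simp only at h4
      rw [Multiset.card_cons] at h1
      have h2' : ∀ t ∈ ts', t.1 + t.2.1 + t.2.2 ≤ L :=
        fun t ht' => h2 t (Multiset.mem_cons_of_mem ht')
      rcases le_total b a with hab | hab
      · obtain ⟨ha, hb, hr⟩ := pair_le h4
        refine ⟨a, mem_dd _ _ ha, b, mem_dd _ _ (List.mem_of_mem_erase hb),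
          ⟨⟨⟨hab, hsum⟩, ?_⟩, ?_⟩⟩
        · by_cases hba : b = a
          · right
            subst hba
            have h7 : 0 < List.count b (gs.erase b) := List.count_pos_iff.mpr hb
            rw [List.count_erase_self] at h7
            omega
          · left
            simp only [Bool.not_eq_true', nbeq_false, ne_eq]
            exact hba
        · exact ih _ k (Multiset.card ts') ⟨ts', rfl, h2', h3, hr⟩ (by omega)
      · rw [Multiset.cons_swap] at h4
        obtain ⟨hb, ha, hr⟩ := pair_le h4
        refine ⟨b, mem_dd _ _ hb, a, mem_dd _ _ (List.mem_of_mem_erase ha),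
          ⟨⟨⟨hab, by omega⟩, ?_⟩, ?_⟩⟩
        · by_cases hba : a = b
          · right
            subst hba
            have h7 : 0 < List.count a (gs.erase a) := List.count_pos_iff.mpr ha
            rw [List.count_erase_self] at h7
            omega
          · left
            simp only [Bool.not_eq_true', nbeq_false, ne_eq]
            exact hba
        · exact ih _ k (Multiset.card ts') ⟨ts', rfl, h2', h3, hr⟩ (by omega)

theorem noFill_of_fsearch {L : ℕ} (hs gs : List ℕ) (k m : ℕ) (hlen : hs.length ≤ m + k)
    (h : fsearch L hs gs k = false) : ¬ FillPack L (hs : Multiset ℕ) (gs : Multiset ℕ) m := by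
  intro hF
  have := fsearch_complete L hs gs k m hF hlen
  rw [h] at this
  exact Bool.false_ne_true this

/-- the scale separation lemma `wrap`, with the finite check left as a hypothesis -/
theorem wrapF (L f g e : ℕ) (zs ys : List ℕ) (νY P : ℕ) (hfg : f ≤ g)
    (hY : ∀ y ∈ ys, f ≤ y ∧ y ≤ g)
    (hZ : ∀ z ∈ zs, z < f ∨ (g < z ∧ L < 2 * f + z))
    (hP : (zs.map (prF f)).sum = P)
    (hs : ¬ TriplePackF L f 1 (prF f) ((zs ++ List.replicate e f : List ℕ) : Multiset ℕ) P)
    (hν : ¬ TriplePack L (ys : Multiset ℕ) (νY + 1))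
    (hlen : ys.length ≤ 3 * νY + e) :
    ¬ TriplePack L ((zs ++ ys : List ℕ) : Multiset ℕ) (νY + P) := by
  classical
  rintro ⟨ts, h1, h2, h3⟩
  rw [← Multiset.coe_add] at h3
  let isY : ℕ → Prop := fun l => f ≤ l ∧ l ≤ g
  let φ : ℕ → ℕ := fun l => if isY l then f else l
  let tsY := ts.filter (fun t => ∀ a ∈ t, isY a)
  let tsZ := ts.filter (fun t => ¬ ∀ a ∈ t, isY a)
  have hts : tsY + tsZ = ts := Multiset.filter_add_not _ _
  have hjoin : tsY.join + tsZ.join = ts.join := by rw [← Multiset.join_add, hts]
  have hcard : Multiset.card tsY + Multiset.card tsZ = νY + P := by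
    rw [← Multiset.card_add, hts, h1]
  -- the two parts of the ground multiset
  have hzsY : (zs : Multiset ℕ).filter isY = 0 := by
    rw [Multiset.filter_eq_nil]
    intro a ha hYa
    have ha' : a ∈ zs := by simpa using ha
    rcases hZ a ha' with h | h
    · exact absurd hYa.1 (by omega)
    · exact absurd hYa.2 (by omega)
  have hysY : (ys : Multiset ℕ).filter isY = ys := by
    rw [Multiset.filter_eq_self]
    intro a ha
    exact hY a (by simpa using ha)
  have hzsN : (zs : Multiset ℕ).filter (fun l => ¬ isY l) = zs := by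
    rw [Multiset.filter_eq_self]
    intro a ha hYa
    have ha' : a ∈ zs := by simpa using ha
    rcases hZ a ha' with h | h
    · exact absurd hYa.1 (by omega)
    · exact absurd hYa.2 (by omega)
  have hysN : (ys : Multiset ℕ).filter (fun l => ¬ isY l) = 0 := by
    rw [Multiset.filter_eq_nil]
    intro a ha hn
    exact hn (hY a (by simpa using ha))
  have hYjoin : tsY.join.filter isY = tsY.join := by
    rw [Multiset.filter_eq_self]
    intro a ha
    rw [Multiset.mem_join] at ha
    obtain ⟨t, ht, hat⟩ := ha
    exact (Multiset.mem_filter.mp ht).2 a hat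
  have hYjoinN : tsY.join.filter (fun l => ¬ isY l) = 0 := by
    rw [Multiset.filter_eq_nil]
    intro a ha hn
    rw [Multiset.mem_join] at ha
    obtain ⟨t, ht, hat⟩ := ha
    exact hn ((Multiset.mem_filter.mp ht).2 a hat)
  have hA : tsY.join + tsZ.join.filter isY ≤ (ys : Multiset ℕ) := by
    have := Multiset.filter_le_filter isY h3
    rwa [← hjoin, Multiset.filter_add, Multiset.filter_add, hzsY, hysY, hYjoin, zero_add] at this
  have hB : tsZ.join.filter (fun l => ¬ isY l) ≤ (zs : Multiset ℕ) := by
    have := Multiset.filter_le_filter (fun l => ¬ isY l) h3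
    rwa [← hjoin, Multiset.filter_add, Multiset.filter_add, hzsN, hysN, hYjoinN, zero_add,
      add_zero] at this
  set s := Multiset.card (tsZ.join.filter isY) with hsdef
  -- the inner part
  have hTY : TriplePack L (ys : Multiset ℕ) (Multiset.card tsY) :=
    ⟨tsY, rfl, fun t ht => h2 t (Multiset.mem_of_mem_filter ht),
      le_trans (Multiset.le_add_right _ _) hA⟩
  have hcY : 3 * Multiset.card tsY + s ≤ ys.length := by
    have e1 : Multiset.card tsY.join = 3 * Multiset.card tsY := by
      rw [Multiset.card_join]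
      have : tsY.map Multiset.card = tsY.map (fun _ => 3) :=
        Multiset.map_congr rfl (fun t ht => (h2 t (Multiset.mem_of_mem_filter ht)).1)
      rw [this, Multiset.map_const', Multiset.sum_replicate, smul_eq_mul, mul_comm]
    have := Multiset.card_le_card hA
    rw [Multiset.card_add, e1, Multiset.coe_card] at this
    exact this
  have hYle : Multiset.card tsY ≤ νY := by
    by_contra hcon
    exact hν (hTY.mono _ (by omega))
  -- the outer part
  have hφle : ∀ l, φ l ≤ l := by
    intro l
    simp only [φ]
    split_ifs with h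
    · exact h.1
    · exact le_rfl
  have hφpr : ∀ l, l < f → prF f (φ l) = 1 := by
    intro l hl
    have : ¬ isY l := fun h => absurd h.1 (by omega)
    simp only [φ, if_neg this, prF, if_pos hl]
  have hmapjoin : (tsZ.map (Multiset.map φ)).join =
      tsZ.join.filter (fun l => ¬ isY l) + Multiset.replicate s f := by
    rw [← Multiset.map_join]
    conv_lhs => rw [← Multiset.filter_add_not isY tsZ.join]
    rw [Multiset.map_add, add_comm]
    congr 1
    · have : (tsZ.join.filter (fun l => ¬ isY l)).map φ =
          (tsZ.join.filter (fun l => ¬ isY l)).map id :=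
        Multiset.map_congr rfl (fun x hx => if_neg (Multiset.mem_filter.mp hx).2)
      rw [this, Multiset.map_id]
    · have : (tsZ.join.filter isY).map φ = (tsZ.join.filter isY).map (fun _ => f) :=
        Multiset.map_congr rfl (fun x hx => if_pos (Multiset.mem_filter.mp hx).2)
      rw [this, Multiset.map_const']
  have hTZ : TriplePackF L f 1 (prF f) ((zs : Multiset ℕ) + Multiset.replicate s f)
      (Multiset.card tsZ) := by
    refine ⟨tsZ.map (Multiset.map φ), Multiset.card_map _ _, ?_, ?_⟩
    · intro t' ht'
      rw [Multiset.mem_map] at ht'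
      obtain ⟨t, ht, rfl⟩ := ht'
      have htts : t ∈ ts := Multiset.mem_of_mem_filter ht
      have hnot := (Multiset.mem_filter.mp ht).2
      push Not at hnot
      obtain ⟨a, ha, hna⟩ := hnot
      have hajoin : a ∈ ts.join := Multiset.mem_join.mpr ⟨t, htts, ha⟩
      have hazs : a ∈ zs := by
        have := Multiset.mem_of_le h3 hajoin
        rw [Multiset.mem_add] at this
        rcases this with h | h
        · simpa using h
        · exact absurd (hY a (by simpa using h)) hna
      have ht3 := h2 t htts
      obtain ⟨t', rfl⟩ := Multiset.exists_cons_of_mem ha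
      have hc2 : Multiset.card t' = 2 := by
        have := ht3.1
        rw [Multiset.card_cons] at this
        omega
      rw [Multiset.card_eq_two] at hc2
      obtain ⟨b, c, rfl⟩ := hc2
      have hsum : a + b + c ≤ L := by
        have := ht3.2
        simp only [Multiset.sum_cons, Multiset.insert_eq_cons, Multiset.sum_singleton] at this
        omega
      have hφa : φ a = a := if_neg hna
      have hb := hφle b
      have hc := hφle c
      refine ⟨by rw [Multiset.card_map]; exact ht3.1, ?_, ⟨a, ?_, ?_⟩, ?_⟩
      · simp only [Multiset.map_cons, Multiset.sum_cons, Multiset.insert_eq_cons,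
          Multiset.map_singleton, Multiset.sum_singleton, hφa]
        omega
      · simp only [Multiset.map_cons, hφa, Multiset.mem_cons, true_or]
      · rintro rfl
        exact hna ⟨le_rfl, hfg⟩
      · simp only [Multiset.map_cons, Multiset.sum_cons, Multiset.insert_eq_cons,
          Multiset.map_singleton, Multiset.sum_singleton, hφa]
        rcases hZ a hazs with h | h
        · have : prF f a = 1 := by simp only [prF, if_pos h]
          omega
        · rcases Nat.lt_or_ge b f with hbf | hbf
          · have := hφpr b hbf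
            omega
          · rcases Nat.lt_or_ge c f with hcf | hcf
            · have := hφpr c hcf
              omega
            · omega
    · rw [hmapjoin]
      exact add_le_add_left hB _
  have hprf : prF f f = 0 := by simp [prF]
  have hsumpr : ∀ k, ((zs ++ List.replicate k f).map (prF f)).sum = P := by
    intro k
    rw [List.map_append, List.sum_append, hP, List.map_replicate, List.sum_replicate, hprf]
    simp
  have hZle : Multiset.card tsZ ≤ P := by
    have := hTZ.price_le
    rw [← Multiset.coe_replicate, Multiset.coe_add, Multiset.map_coe, Multiset.sum_coe,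
      hsumpr] at this
    omega
  rcases Nat.lt_or_ge e s with hse | hse
  · omega
  · have hTZ' : TriplePackF L f 1 (prF f) ((zs ++ List.replicate e f : List ℕ) : Multiset ℕ)
        (Multiset.card tsZ) := by
      obtain ⟨us, u1, u2, u3⟩ := hTZ
      refine ⟨us, u1, u2, le_trans u3 ?_⟩
      rw [← Multiset.coe_add, Multiset.coe_replicate]
      apply add_le_add_right
      rw [Multiset.replicate_le_replicate]
      exact hse
    have hne : Multiset.card tsZ ≠ P := by
      intro heq
      exact hs (heq ▸ hTZ')
    omega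


theorem prF_sum_eq (f : ℕ) (t : Multiset ℕ) :
    (t.map (prF f)).sum = Multiset.countP (fun a => a < f) t := by
  induction t using Multiset.induction_on with
  | empty => simp
  | cons a t ih =>
    rw [Multiset.map_cons, Multiset.sum_cons, ih, Multiset.countP_cons]
    unfold prF
    split_ifs <;> omega

theorem one_each (p : ℕ → Prop) [DecidablePred p] (ts : Multiset (Multiset ℕ)) :
    (∀ t ∈ ts, 1 ≤ Multiset.countP p t) →
    Multiset.card ts ≤ Multiset.countP p ts.join ∧
      (Multiset.countP p ts.join ≤ Multiset.card ts → ∀ t ∈ ts, Multiset.countP p t = 1) := by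
  induction ts using Multiset.induction_on with
  | empty => intro _; simp
  | cons t ts ih =>
    intro h
    have h1 := h t (Multiset.mem_cons_self _ _)
    obtain ⟨i1, i2⟩ := ih (fun u hu => h u (Multiset.mem_cons_of_mem hu))
    rw [Multiset.join_cons, Multiset.countP_add, Multiset.card_cons]
    refine ⟨by omega, fun hle u hu => ?_⟩
    rcases Multiset.mem_cons.mp hu with rfl | hu'
    · omega
    · exact i2 (by omega) u hu'

theorem triple_split (p : ℕ → Prop) [DecidablePred p] (t : Multiset ℕ)
    (h3 : Multiset.card t = 3) (h1 : Multiset.countP p t = 1) :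
    ∃ a b c, t = a ::ₘ b ::ₘ c ::ₘ 0 ∧ p a ∧ ¬ p b ∧ ¬ p c := by
  have hpos : 0 < Multiset.countP p t := by omega
  obtain ⟨a, ha, hpa⟩ := Multiset.countP_pos.mp hpos
  obtain ⟨t', rfl⟩ := Multiset.exists_cons_of_mem ha
  rw [Multiset.card_cons] at h3
  have hc2 : Multiset.card t' = 2 := by omega
  rw [Multiset.countP_cons_of_pos _ hpa] at h1
  have h0 : Multiset.countP p t' = 0 := by omega
  rw [Multiset.countP_eq_zero] at h0
  rw [Multiset.card_eq_two] at hc2
  obtain ⟨b, c, rfl⟩ := hc2
  exact ⟨a, b, c, rfl, hpa, h0 b (by simp), h0 c (by simp)⟩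

theorem split_family (L : ℕ) (p : ℕ → Prop) [DecidablePred p] (ts : Multiset (Multiset ℕ)) :
    (∀ t ∈ ts, Multiset.card t = 3 ∧ t.sum ≤ L ∧ Multiset.countP p t = 1) →
    ∃ us : Multiset (ℕ × ℕ × ℕ), Multiset.card us = Multiset.card ts ∧
      (∀ u ∈ us, u.1 + u.2.1 + u.2.2 ≤ L) ∧
      us.map (fun u => u.1) = ts.join.filter p ∧
      us.map (fun u => u.2.1) + us.map (fun u => u.2.2) = ts.join.filter (fun a => ¬ p a) := by
  induction ts using Multiset.induction_on with
  | empty => intro _; exact ⟨0, by simp⟩
  | cons t ts ih =>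
    intro h
    obtain ⟨us, u1, u2, u3, u4⟩ := ih (fun u hu => h u (Multiset.mem_cons_of_mem hu))
    obtain ⟨h3, hs, h1⟩ := h t (Multiset.mem_cons_self _ _)
    obtain ⟨a, b, c, rfl, ha, hb, hc⟩ := triple_split p t h3 h1
    refine ⟨(a, b, c) ::ₘ us, by simp [u1], ?_, ?_, ?_⟩
    · intro u hu
      rcases Multiset.mem_cons.mp hu with rfl | hu'
      · simp only [Multiset.sum_cons, Multiset.sum_zero] at hs
        simp only
        omega
      · exact u2 u hu'
    · rw [Multiset.map_cons, u3, Multiset.join_cons, Multiset.filter_add,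
        Multiset.filter_cons_of_pos _ ha, Multiset.filter_cons_of_neg _ hb,
        Multiset.filter_cons_of_neg _ hc, Multiset.filter_zero, Multiset.cons_add, zero_add]
    · rw [Multiset.map_cons, Multiset.map_cons, Multiset.join_cons, Multiset.filter_add,
        Multiset.filter_cons_of_neg (p := fun a => ¬ p a) _ (not_not.mpr ha),
        Multiset.filter_cons_of_pos (p := fun a => ¬ p a) _ hb,
        Multiset.filter_cons_of_pos (p := fun a => ¬ p a) _ hc, Multiset.filter_zero, ← u4,
        Multiset.cons_add,
        Multiset.add_cons, Multiset.cons_add, Multiset.cons_add, zero_add]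

/-- if as many triples as there are short items are packed, each containing a short item, then
every triple consists of one short item (the host) and two other items (its guests) -/
theorem fill_of_packF (L f : ℕ) (s : Multiset ℕ) (P : ℕ)
    (hP : Multiset.countP (fun a => a < f) s ≤ P) (h : TriplePackF L f 1 (prF f) s P) :
    FillPack L (s.filter (fun a => a < f)) (s.filter (fun a => ¬ a < f)) P := by
  obtain ⟨ts, h1, h2, h3⟩ := h
  have hone : ∀ t ∈ ts, 1 ≤ Multiset.countP (fun a => a < f) t := by
    intro t ht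
    rw [← prF_sum_eq]
    exact (h2 t ht).2.2.2
  obtain ⟨_, i2⟩ := one_each _ ts hone
  have hle : Multiset.countP (fun a => a < f) ts.join ≤ Multiset.card ts := by
    rw [h1]
    exact le_trans (Multiset.countP_le_of_le _ h3) hP
  have hall := i2 hle
  obtain ⟨us, u1, u2, u3, u4⟩ := split_family L (fun a => a < f) ts
    (fun t ht => ⟨(h2 t ht).1, (h2 t ht).2.1, hall t ht⟩)
  refine ⟨us, by rw [u1, h1], u2, ?_, ?_⟩
  · rw [u3]
    exact Multiset.filter_le_filter _ h3
  · rw [u4]
    exact Multiset.filter_le_filter _ h3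

theorem map_ite_eq (q : ℕ → Prop) [DecidablePred q] (v : ℕ) (s : Multiset ℕ) :
    s.map (fun l => if q l then v else l) =
      Multiset.replicate (Multiset.card (s.filter q)) v + s.filter (fun l => ¬ q l) := by
  conv_lhs => rw [← Multiset.filter_add_not q s]
  rw [Multiset.map_add]
  congr 1
  · have : (s.filter q).map (fun l => if q l then v else l) = (s.filter q).map (fun _ => v) :=
      Multiset.map_congr rfl (fun x hx => if_pos (Multiset.mem_filter.mp hx).2)
    rw [this, Multiset.map_const']
  · have : (s.filter (fun l => ¬ q l)).map (fun l => if q l then v else l) =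
        (s.filter (fun l => ¬ q l)).map id :=
      Multiset.map_congr rfl (fun x hx => if_neg (Multiset.mem_filter.mp hx).2)
    rw [this, Multiset.map_id]

theorem filter_split (q : ℕ → Prop) [DecidablePred q] (A B : Multiset ℕ)
    (hA : ∀ a ∈ A, q a) (hB : ∀ b ∈ B, ¬ q b) :
    (A + B).filter q = A ∧ (A + B).filter (fun l => ¬ q l) = B := by
  constructor
  · rw [Multiset.filter_add, Multiset.filter_eq_self.mpr hA, Multiset.filter_eq_nil.mpr hB,
      add_zero]
  · rw [Multiset.filter_add, Multiset.filter_eq_nil.mpr (fun a ha => not_not.mpr (hA a ha)),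
      Multiset.filter_eq_self.mpr hB, zero_add]

/-- Typed scale separation.  The hosts are the inner hosts `yB` (lengths in `[βlo, βhi]`) and the
outer hosts `hO`, the guests are the inner guests `yI` (lengths in `[ιlo, ιhi]`) and the outer
guests `gO`.  A filled host is *inner* if it and both its guests are inner.  In the other filled
hosts the inner guests are replaced by `ιlo` and the inner hosts by `βh`. -/
theorem wrapT (L : ℕ) (yB yI hO gO : Multiset ℕ) (βlo βhi ιlo ιhi βh αI m : ℕ)
    (hyB : ∀ b ∈ yB, βlo ≤ b ∧ b ≤ βhi) (hyI : ∀ i ∈ yI, ιlo ≤ i ∧ i ≤ ιhi)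
    (hhO : ∀ h ∈ hO, ¬ (βlo ≤ h ∧ h ≤ βhi)) (hgO : ∀ g ∈ gO, ¬ (ιlo ≤ g ∧ g ≤ ιhi))
    (hmargin : ∀ o ∈ gO, ∀ g ∈ ιlo ::ₘ gO, βlo + o + g ≤ L → βh + o + g ≤ L)
    (hinner : ¬ FillPack L yB yI (αI + 1))
    (houter : ∀ c ≤ αI, ¬ FillPack L (Multiset.replicate (Multiset.card yB - c) βh + hO)
      (Multiset.replicate (Multiset.card yI - 2 * c) ιlo + gO) (m - c)) :
    ¬ FillPack L (yB + hO) (yI + gO) m := by
  classical
  rintro ⟨ts, h1, h2, h3, h4⟩
  let inB : ℕ → Prop := fun l => βlo ≤ l ∧ l ≤ βhi
  let inI : ℕ → Prop := fun l => ιlo ≤ l ∧ l ≤ ιhi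
  let isY : ℕ × ℕ × ℕ → Prop := fun t => inB t.1 ∧ inI t.2.1 ∧ inI t.2.2
  let φB : ℕ → ℕ := fun l => if inB l then βh else l
  let φI : ℕ → ℕ := fun l => if inI l then ιlo else l
  let tsY := ts.filter isY
  let tsZ := ts.filter (fun t => ¬ isY t)
  have hts : tsY + tsZ = ts := Multiset.filter_add_not _ _
  let YH := tsY.map (fun t => t.1)
  let ZH := tsZ.map (fun t => t.1)
  let YG := tsY.map (fun t => t.2.1) + tsY.map (fun t => t.2.2)
  let ZG := tsZ.map (fun t => t.2.1) + tsZ.map (fun t => t.2.2)
  have hH : YH + ZH = ts.map (fun t => t.1) := by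
    simp only [YH, ZH]
    rw [← Multiset.map_add, hts]
  have hG : YG + ZG = ts.map (fun t => t.2.1) + ts.map (fun t => t.2.2) := by
    simp only [YG, ZG]
    rw [← hts, Multiset.map_add, Multiset.map_add, add_add_add_comm]
  have hcard : Multiset.card tsY + Multiset.card tsZ = m := by
    rw [← Multiset.card_add, hts, h1]
  obtain ⟨eB1, eB2⟩ := filter_split inB yB hO hyB hhO
  obtain ⟨eI1, eI2⟩ := filter_split inI yI gO hyI hgO
  have hYH : ∀ a ∈ YH, inB a := by
    intro a ha
    obtain ⟨t, ht, rfl⟩ := Multiset.mem_map.mp ha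
    exact (Multiset.mem_filter.mp ht).2.1
  have hYG : ∀ a ∈ YG, inI a := by
    intro a ha
    rcases Multiset.mem_add.mp ha with ha | ha
    · obtain ⟨t, ht, rfl⟩ := Multiset.mem_map.mp ha
      exact (Multiset.mem_filter.mp ht).2.2.1
    · obtain ⟨t, ht, rfl⟩ := Multiset.mem_map.mp ha
      exact (Multiset.mem_filter.mp ht).2.2.2
  have hAB : YH + ZH.filter inB ≤ yB := by
    have := Multiset.filter_le_filter inB h3
    rwa [← hH, Multiset.filter_add, eB1, Multiset.filter_eq_self.mpr hYH] at this
  have hBB : ZH.filter (fun l => ¬ inB l) ≤ hO := by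
    have := Multiset.filter_le_filter (fun l => ¬ inB l) h3
    rwa [← hH, Multiset.filter_add, eB2,
      Multiset.filter_eq_nil.mpr (fun a ha => not_not.mpr (hYH a ha)), zero_add] at this
  have hAI : YG + ZG.filter inI ≤ yI := by
    have := Multiset.filter_le_filter inI h4
    rwa [← hG, Multiset.filter_add, eI1, Multiset.filter_eq_self.mpr hYG] at this
  have hBI : ZG.filter (fun l => ¬ inI l) ≤ gO := by
    have := Multiset.filter_le_filter (fun l => ¬ inI l) h4
    rwa [← hG, Multiset.filter_add, eI2,
      Multiset.filter_eq_nil.mpr (fun a ha => not_not.mpr (hYG a ha)), zero_add] at this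
  -- the inner part
  have hFY : FillPack L yB yI (Multiset.card tsY) :=
    ⟨tsY, rfl, fun t ht => h2 t (Multiset.mem_of_mem_filter ht),
      le_trans (Multiset.le_add_right _ _) hAB, le_trans (Multiset.le_add_right _ _) hAI⟩
  have hc : Multiset.card tsY ≤ αI := by
    by_contra hcon
    exact hinner (hFY.le _ (by omega))
  have hcB : Multiset.card tsY + Multiset.card (ZH.filter inB) ≤ Multiset.card yB := by
    have := Multiset.card_le_card hAB
    rwa [Multiset.card_add, Multiset.card_map] at this
  have hcI : 2 * Multiset.card tsY + Multiset.card (ZG.filter inI) ≤ Multiset.card yI := by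
    have := Multiset.card_le_card hAI
    rw [Multiset.card_add, Multiset.card_add, Multiset.card_map, Multiset.card_map] at this
    omega
  -- the outer part
  apply houter (Multiset.card tsY) hc
  have hφI : ∀ l, φI l ≤ l := by
    intro l
    simp only [φI]
    split_ifs with h
    · exact h.1
    · exact le_rfl
  have hmemG : ∀ t ∈ tsZ, (¬ inI t.2.1 → t.2.1 ∈ gO) ∧ (¬ inI t.2.2 → t.2.2 ∈ gO) := by
    intro t ht
    constructor
    · intro hn
      exact Multiset.mem_of_le hBI (Multiset.mem_filter.mpr
        ⟨Multiset.mem_add.mpr (Or.inl (Multiset.mem_map_of_mem _ ht)), hn⟩)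
    · intro hn
      exact Multiset.mem_of_le hBI (Multiset.mem_filter.mpr
        ⟨Multiset.mem_add.mpr (Or.inr (Multiset.mem_map_of_mem _ ht)), hn⟩)
  have hφmem : ∀ t ∈ tsZ, φI t.2.1 ∈ ιlo ::ₘ gO ∧ φI t.2.2 ∈ ιlo ::ₘ gO := by
    intro t ht
    constructor
    · simp only [φI]
      split_ifs with h
      · exact Multiset.mem_cons_self _ _
      · exact Multiset.mem_cons_of_mem ((hmemG t ht).1 h)
    · simp only [φI]
      split_ifs with h
      · exact Multiset.mem_cons_self _ _
      · exact Multiset.mem_cons_of_mem ((hmemG t ht).2 h)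
  refine ⟨tsZ.map (fun t => (φB t.1, φI t.2.1, φI t.2.2)), ?_, ?_, ?_, ?_⟩
  · rw [Multiset.card_map]
    omega
  · intro u hu
    obtain ⟨t, ht, rfl⟩ := Multiset.mem_map.mp hu
    have hsum := h2 t (Multiset.mem_of_mem_filter ht)
    have hnY := (Multiset.mem_filter.mp ht).2
    have ha := hφI t.2.1
    have hb := hφI t.2.2
    simp only
    by_cases hB : inB t.1
    · have e : φB t.1 = βh := if_pos hB
      rw [e]
      by_cases hI1 : inI t.2.1
      · have hI2 : ¬ inI t.2.2 := fun h => hnY ⟨hB, hI1, h⟩
        have e2 : φI t.2.2 = t.2.2 := if_neg hI2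
        have := hmargin t.2.2 ((hmemG t ht).2 hI2) (φI t.2.1) (hφmem t ht).1
          (by have := hB.1; omega)
        rw [e2]
        omega
      · have e1 : φI t.2.1 = t.2.1 := if_neg hI1
        have := hmargin t.2.1 ((hmemG t ht).1 hI1) (φI t.2.2) (hφmem t ht).2
          (by have := hB.1; omega)
        rw [e1]
        omega
    · have e : φB t.1 = t.1 := if_neg hB
      rw [e]
      omega
  · rw [Multiset.map_map]
    have e : tsZ.map ((fun u : ℕ × ℕ × ℕ => u.1) ∘ fun t => (φB t.1, φI t.2.1, φI t.2.2)) =
        ZH.map φB := by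
      simp only [ZH]
      rw [Multiset.map_map]
      rfl
    rw [e, map_ite_eq inB βh ZH]
    exact add_le_add ((Multiset.replicate_le_replicate _).mpr (by omega)) hBB
  · rw [Multiset.map_map, Multiset.map_map]
    have e : tsZ.map ((fun u : ℕ × ℕ × ℕ => u.2.1) ∘ fun t => (φB t.1, φI t.2.1, φI t.2.2)) +
        tsZ.map ((fun u : ℕ × ℕ × ℕ => u.2.2) ∘ fun t => (φB t.1, φI t.2.1, φI t.2.2)) =
        ZG.map φI := by
      simp only [ZG]
      rw [Multiset.map_add, Multiset.map_map, Multiset.map_map]
      rfl
    rw [e, map_ite_eq inI ιlo ZG]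
    exact add_le_add ((Multiset.replicate_le_replicate _).mpr (by omega)) hBI

/-- list form of `wrapT`, the outer checks being done by `fsearch` -/
theorem wrapT_list (L : ℕ) (yB yI hO1 hO2 gO : List ℕ) (βlo βhi ιlo ιhi βh αI m k : ℕ)
    (hyB : ∀ b ∈ yB, βlo ≤ b ∧ b ≤ βhi) (hyI : ∀ i ∈ yI, ιlo ≤ i ∧ i ≤ ιhi)
    (hhO : ∀ h ∈ hO1 ++ hO2, ¬ (βlo ≤ h ∧ h ≤ βhi)) (hgO : ∀ g ∈ gO, ¬ (ιlo ≤ g ∧ g ≤ ιhi))
    (hmargin : ∀ o ∈ gO, ∀ g ∈ ιlo :: gO, βlo + o + g ≤ L → βh + o + g ≤ L)
    (hinner : ¬ FillPack L (yB : Multiset ℕ) (yI : Multiset ℕ) (αI + 1))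
    (hα : αI ≤ yB.length)
    (hk : hO1.length + hO2.length + yB.length ≤ m + k)
    (houter : ∀ c ≤ αI, fsearch L (hO1 ++ (List.replicate (yB.length - c) βh ++ hO2))
      (List.replicate (yI.length - 2 * c) ιlo ++ gO) k = false) :
    ¬ FillPack L ((yB ++ (hO1 ++ hO2) : List ℕ) : Multiset ℕ) ((yI ++ gO : List ℕ) : Multiset ℕ)
      m := by
  rw [← Multiset.coe_add, ← Multiset.coe_add]
  apply wrapT L yB yI ((hO1 ++ hO2 : List ℕ) : Multiset ℕ) gO βlo βhi ιlo ιhi βh αI m
  · intro b hb; exact hyB b (by simpa using hb)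
  · intro b hb; exact hyI b (by simpa using hb)
  · intro b hb; exact hhO b (by simpa using hb)
  · intro b hb; exact hgO b (by simpa using hb)
  · intro o ho g hg
    exact hmargin o (by simpa using ho) g (by simpa using hg)
  · exact hinner
  · intro c hc hF
    have hlen : (hO1 ++ (List.replicate (yB.length - c) βh ++ hO2)).length ≤ (m - c) + k := by
      simp only [List.length_append, List.length_replicate]
      omega
    apply noFill_of_fsearch _ _ k (m - c) hlen (houter c hc)
    have e1 : ((hO1 ++ (List.replicate (yB.length - c) βh ++ hO2) : List ℕ) : Multiset ℕ) =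
        Multiset.replicate (yB.length - c) βh + ((hO1 ++ hO2 : List ℕ) : Multiset ℕ) := by
      rw [← Multiset.coe_add, ← Multiset.coe_add, ← Multiset.coe_add, Multiset.coe_replicate,
        add_left_comm]
    have e2 : ((List.replicate (yI.length - 2 * c) ιlo ++ gO : List ℕ) : Multiset ℕ) =
        Multiset.replicate (yI.length - 2 * c) ιlo + (gO : Multiset ℕ) := by
      rw [← Multiset.coe_add, Multiset.coe_replicate]
    rw [e1, e2]
    simpa using hF

theorem noPackF_of_noFill (L f : ℕ) (l hosts guests : List ℕ) (P : ℕ)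
    (hH : l.filter (fun a => decide (a < f)) = hosts)
    (hG : l.filter (fun a => decide (¬ a < f)) = guests)
    (hP : hosts.length ≤ P)
    (hno : ¬ FillPack L (hosts : Multiset ℕ) (guests : Multiset ℕ) P) :
    ¬ TriplePackF L f 1 (prF f) (l : Multiset ℕ) P := by
  intro h
  apply hno
  have h1 := fill_of_packF L f l P (by
    rw [Multiset.countP_eq_card_filter, Multiset.filter_coe, hH, Multiset.coe_card]
    exact hP) h
  rwa [Multiset.filter_coe, Multiset.filter_coe, hH, hG] at h1

end Vale.Agent.Lib.P302
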