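import Vale.Agent.Lib.P302.Wrap

namespace Vale.Agent.Lib.P302

open Finset

/-- `m` disjoint triples inside `s`, each of total length at most `L`, of total price exactly `1`,
and not consisting of three elements of one and the same nonzero group. -/
def PackX (L : ℕ) (ex pr : ℕ → ℕ) (s : Multiset ℕ) (m : ℕ) : Prop :=
  ∃ ts : Multiset (Multiset ℕ), Multiset.card ts = m ∧
    (∀ t ∈ ts, Multiset.card t = 3 ∧ t.sum ≤ L ∧ (t.map pr).sum = 1 ∧
      ¬ ∃ g, g ≠ 0 ∧ ∀ a ∈ t, ex a = g) ∧
    ts.join ≤ s

/-- depth-first search for `PackX` with a budget for the prices of the items left out -/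
def xsearch (L : ℕ) (ex pr : ℕ → ℕ) : ℕ → List ℕ → ℕ → Bool
  | 0, _, _ => true
  | _ + 1, [], _ => true
  | fuel + 1, x :: rest, bud =>
    (Nat.ble (pr x) bud && xsearch L ex pr fuel rest (bud - pr x)) ||
      (dd rest).any (fun y => Nat.ble (pr x + pr y) 1 && (dd rest).any (fun z =>
        Nat.ble z y && Nat.ble (x + y + z) L && Nat.beq (pr x + pr y + pr z) 1 &&
        !(!(Nat.beq (ex x) 0) && Nat.beq (ex x) (ex y) && Nat.beq (ex x) (ex z)) &&
        (!(Nat.beq z y) || Nat.ble 2 (rest.count y)) &&
          xsearch L ex pr fuel ((rest.erase y).erase z) bud))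

theorem join_price {pr : ℕ → ℕ} (ts : Multiset (Multiset ℕ))
    (h : ∀ t ∈ ts, (t.map pr).sum = 1) : ((ts.join).map pr).sum = Multiset.card ts := by
  induction ts using Multiset.induction_on with
  | empty => simp
  | cons t ts ih =>
    rw [Multiset.card_cons, Multiset.join_cons, Multiset.map_add, Multiset.sum_add,
      ih (fun t' ht' => h t' (Multiset.mem_cons_of_mem ht')), h t (Multiset.mem_cons_self _ _)]
    omega

theorem join_card3 (ts : Multiset (Multiset ℕ)) (h : ∀ t ∈ ts, Multiset.card t = 3) :
    Multiset.card ts.join = 3 * Multiset.card ts := by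
  rw [Multiset.card_join]
  have : ts.map Multiset.card = ts.map (fun _ => 3) := Multiset.map_congr rfl h
  rw [this, Multiset.map_const', Multiset.sum_replicate, smul_eq_mul, mul_comm]

theorem PackX.price_le {L : ℕ} {ex pr : ℕ → ℕ} {s : Multiset ℕ} {m : ℕ}
    (h : PackX L ex pr s m) : m ≤ (s.map pr).sum := by
  obtain ⟨ts, h1, h2, h3⟩ := h
  have h4 := join_price ts (fun t ht => (h2 t ht).2.2.1)
  obtain ⟨u, rfl⟩ := Multiset.le_iff_exists_add.mp h3
  rw [Multiset.map_add, Multiset.sum_add]
  omega

theorem PackX.pred {L : ℕ} {ex pr : ℕ → ℕ} {s : Multiset ℕ} {m : ℕ}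
    (h : PackX L ex pr s (m + 1)) : PackX L ex pr s m := by
  obtain ⟨ts, h1, h2, h3⟩ := h
  obtain ⟨t, ts', rfl, hc⟩ := Multiset.card_eq_succ_iff.mp h1
  refine ⟨ts', hc, fun u hu => h2 u (Multiset.mem_cons_of_mem hu), ?_⟩
  rw [Multiset.join_cons] at h3
  exact le_trans (Multiset.le_add_left _ _) h3

theorem PackX.mono {L : ℕ} {ex pr : ℕ → ℕ} {s : Multiset ℕ} {m : ℕ} (h : PackX L ex pr s m) :
    ∀ m' ≤ m, PackX L ex pr s m' := by
  induction m with
  | zero =>
    intro m' hm'
    obtain rfl : m' = 0 := by omega
    exact h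
  | succ k ih =>
    intro m' hm'
    rcases Nat.lt_or_ge k m' with h' | h'
    · obtain rfl : m' = k + 1 := by omega
      exact h
    · exact ih h.pred m' h'

theorem PackX.mono_set {L : ℕ} {ex pr : ℕ → ℕ} {s s' : Multiset ℕ} {m : ℕ}
    (h : PackX L ex pr s m) (hs : s ≤ s') : PackX L ex pr s' m := by
  obtain ⟨ts, h1, h2, h3⟩ := h
  exact ⟨ts, h1, h2, le_trans h3 hs⟩

theorem xsearch_complete (L : ℕ) (ex pr : ℕ → ℕ) : ∀ (fuel : ℕ) (ls : List ℕ) (bud m : ℕ),
    PackX L ex pr (ls : Multiset ℕ) m → (ls.map pr).sum ≤ bud + m →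
    xsearch L ex pr fuel ls bud = true := by
  intro fuel
  induction fuel with
  | zero => intro ls bud m _ _; simp [xsearch]
  | succ fuel ih =>
    intro ls bud m h hb
    match ls with
    | [] => simp [xsearch]
    | x :: rest =>
      have hprice := h.price_le
      obtain ⟨ts, h1, h2, h3⟩ := h
      rw [xsearch]
      simp only [Bool.and_eq_true, Nat.ble_eq, Nat.beq_eq, Bool.or_eq_true, List.any_eq_true]
      simp only [List.map_cons, List.sum_cons] at hb
      by_cases hx : ts.join ≤ (rest : Multiset ℕ)
      · left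
        have hr : PackX L ex pr (rest : Multiset ℕ) m := ⟨ts, h1, h2, hx⟩
        have := hr.price_le
        simp only [Multiset.map_coe, Multiset.sum_coe] at this
        exact ⟨by omega, ih rest (bud - pr x) m hr (by omega)⟩
      · right
        have hxmem : x ∈ ts.join := by
          by_contra hcon
          apply hx
          rw [← Multiset.cons_coe] at h3
          exact (Multiset.le_cons_of_notMem hcon).mp h3
        rw [Multiset.mem_join] at hxmem
        obtain ⟨t, ht, hxt⟩ := hxmem
        obtain ⟨ts', rfl⟩ := Multiset.exists_cons_of_mem ht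
        obtain ⟨t', rfl⟩ := Multiset.exists_cons_of_mem hxt
        have ht3 := h2 (x ::ₘ t') (Multiset.mem_cons_self _ _)
        have hc2 : Multiset.card t' = 2 := by
          have := ht3.1
          rw [Multiset.card_cons] at this
          omega
        rw [Multiset.card_eq_two] at hc2
        obtain ⟨a, b, rfl⟩ := hc2
        wlog hab : b ≤ a generalizing a b
        · have hba : a ≤ b := le_of_not_ge hab
          have hswap : ({a, b} : Multiset ℕ) = {b, a} := Multiset.pair_comm a b
          rw [hswap] at h1 h2 h3 ht hxt ht3 hx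
          exact this b a hxt h1 h2 h3 hx ht ht3 hba
        have hsum : x + a + b ≤ L := by
          have := ht3.2.1
          simp only [Multiset.sum_cons, Multiset.insert_eq_cons, Multiset.sum_singleton] at this
          omega
        have hnf : ¬ (ex x ≠ 0 ∧ ex x = ex a ∧ ex x = ex b) := by
          rintro ⟨e0, e1, e2⟩
          apply ht3.2.2.2
          refine ⟨ex x, e0, ?_⟩
          intro c hc
          simp only [Multiset.insert_eq_cons, Multiset.mem_cons, Multiset.mem_singleton] at hc
          rcases hc with rfl | rfl | rfl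
          · rfl
          · exact e1.symm
          · exact e2.symm
        have hpt : pr x + pr a + pr b = 1 := by
          have := ht3.2.2.1
          simp only [Multiset.map_cons, Multiset.sum_cons, Multiset.insert_eq_cons,
            Multiset.map_singleton, Multiset.sum_singleton] at this
          omega
        rw [Multiset.join_cons, ← Multiset.cons_coe, Multiset.cons_add,
          Multiset.cons_le_cons_iff] at h3
        have hpair : ({a, b} : Multiset ℕ) ≤ (rest : Multiset ℕ) :=
          le_trans (Multiset.le_add_right _ _) h3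
        have ha : a ∈ rest := by
          have : a ∈ (rest : Multiset ℕ) := Multiset.mem_of_le hpair (by simp)
          simpa using this
        have hb' : ({b} : Multiset ℕ) ≤ ((rest.erase a : List ℕ) : Multiset ℕ) := by
          rw [← Multiset.coe_erase]
          have := Multiset.erase_le_erase a hpair
          simpa [Multiset.insert_eq_cons] using this
        have hbm : b ∈ rest.erase a := by
          have : b ∈ ((rest.erase a : List ℕ) : Multiset ℕ) := Multiset.mem_of_le hb' (by simp)
          simpa using this
        rw [Multiset.card_cons] at h1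
        obtain ⟨m', rfl⟩ : ∃ m', m = m' + 1 := ⟨Multiset.card ts', h1.symm⟩
        have hr : PackX L ex pr (((rest.erase a).erase b : List ℕ) : Multiset ℕ) m' := by
          refine ⟨ts', by omega, fun t ht' => h2 t (Multiset.mem_cons_of_mem ht'), ?_⟩
          rw [← Multiset.coe_erase, ← Multiset.coe_erase]
          have h5 := Multiset.erase_le_erase b (Multiset.erase_le_erase a h3)
          have h6 : ((({a, b} : Multiset ℕ) + ts'.join).erase a).erase b = ts'.join := by
            simp [Multiset.insert_eq_cons]
          rwa [h6] at h5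
        have hsplit : (rest.map pr).sum = pr a + pr b + (((rest.erase a).erase b).map pr).sum := by
          have e1 : (rest.map pr).sum = pr a + ((rest.erase a).map pr).sum := by
            have := List.sum_map_erase pr ha
            omega
          have e2 : ((rest.erase a).map pr).sum = pr b + (((rest.erase a).erase b).map pr).sum := by
            have := List.sum_map_erase pr hbm
            omega
          omega
        refine ⟨a, mem_dd _ _ ha, by omega, b, mem_dd _ _ (List.mem_of_mem_erase hbm),
          ⟨⟨⟨⟨⟨hab, hsum⟩, hpt⟩, ?_⟩, ?_⟩, ?_⟩⟩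
        · simp only [Bool.not_eq_true', Bool.and_eq_false_iff, nbeq_false, ne_eq,
            Bool.not_eq_false', Nat.beq_eq]
          by_contra hcon
          push Not at hcon
          exact hnf ⟨hcon.1.1, hcon.1.2, hcon.2⟩
        · by_cases hba : b = a
          · right
            subst hba
            have h7 : 0 < List.count b (rest.erase b) := List.count_pos_iff.mpr hbm
            rw [List.count_erase_self] at h7
            omega
          · left
            simp only [Bool.not_eq_true', nbeq_false, ne_eq]
            exact hba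
        · exact ih _ _ m' hr (by omega)

theorem noPackX_of_xsearch (L : ℕ) (ex pr : ℕ → ℕ) (fuel : ℕ) (ls : List ℕ) (bud m : ℕ)
    (hb : (ls.map pr).sum ≤ bud + m) (hs : xsearch L ex pr fuel ls bud = false) :
    ¬ PackX L ex pr (ls : Multiset ℕ) m := by
  intro h
  have := xsearch_complete L ex pr fuel ls bud m h hb
  rw [hs] at this
  exact Bool.false_ne_true this

/-- membership in the window `[f, g]` -/
def inW (f g l : ℕ) : Prop := f ≤ l ∧ l ≤ g

instance inW_dec (f g : ℕ) : DecidablePred (inW f g) := fun l =>
  inferInstanceAs (Decidable (f ≤ l ∧ l ≤ g))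

/-- replaces the elements of two windows by the least elements of the windows -/
def canon (fB gB fA gA l : ℕ) : ℕ :=
  if inW fB gB l then fB else if inW fA gA l then fA else l

theorem map_canon (fB gB fA gA : ℕ) (hd : gB < fA) (s : Multiset ℕ) :
    s.map (canon fB gB fA gA) =
      s.filter (fun l => ¬ inW fB gB l ∧ ¬ inW fA gA l) +
        (Multiset.replicate (s.countP (inW fB gB)) fB +
          Multiset.replicate (s.countP (inW fA gA)) fA) := by
  induction s using Multiset.induction_on with
  | empty => simp
  | cons a s ih =>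
    by_cases hB : inW fB gB a
    · have hA : ¬ inW fA gA a := fun h => by
        have h1 := hB.2
        have h2 := h.1
        omega
      rw [Multiset.map_cons, ih, canon, if_pos hB,
        Multiset.filter_cons_of_neg _ (by tauto), Multiset.countP_cons_of_pos _ hB,
        Multiset.countP_cons_of_neg _ hA, Multiset.replicate_succ, Multiset.cons_add,
        Multiset.add_cons]
    · by_cases hA : inW fA gA a
      · rw [Multiset.map_cons, ih, canon, if_neg hB, if_pos hA,
          Multiset.filter_cons_of_neg _ (by tauto), Multiset.countP_cons_of_neg _ hB,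
          Multiset.countP_cons_of_pos _ hA, Multiset.replicate_succ, Multiset.add_cons,
          Multiset.add_cons]
      · rw [Multiset.map_cons, ih, canon, if_neg hB, if_neg hA,
          Multiset.filter_cons_of_pos _ (by tauto), Multiset.countP_cons_of_neg _ hB,
          Multiset.countP_cons_of_neg _ hA, Multiset.cons_add]

theorem price_window (f fB gB fA gA : ℕ) (hB : gB < f) (hA : f ≤ fA) (t : Multiset ℕ)
    (h : ∀ a ∈ t, inW fB gB a ∨ inW fA gA a) :
    (t.map (prF f)).sum = t.countP (inW fB gB) ∧
      Multiset.card t = t.countP (inW fB gB) + t.countP (inW fA gA) := by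
  induction t using Multiset.induction_on with
  | empty => simp
  | cons a t ih =>
    obtain ⟨i1, i2⟩ := ih (fun b hb => h b (Multiset.mem_cons_of_mem hb))
    rcases h a (Multiset.mem_cons_self _ _) with ha | ha
    · have hA' : ¬ inW fA gA a := fun h' => by
        have h1 := ha.2
        have h2 := h'.1
        omega
      have hp : prF f a = 1 := by
        have h1 := ha.2
        simp only [prF, if_pos (show a < f by omega)]
      rw [Multiset.map_cons, Multiset.sum_cons, Multiset.card_cons,
        Multiset.countP_cons_of_pos _ ha, Multiset.countP_cons_of_neg _ hA', hp, i1]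
      constructor <;> omega
    · have hB' : ¬ inW fB gB a := fun h' => by
        have h1 := ha.1
        have h2 := h'.2
        omega
      have hp : prF f a = 0 := by
        have h1 := ha.1
        simp only [prF, if_neg (show ¬ a < f by omega)]
      rw [Multiset.map_cons, Multiset.sum_cons, Multiset.card_cons,
        Multiset.countP_cons_of_neg _ hB', Multiset.countP_cons_of_pos _ ha, hp, i1]
      constructor <;> omega

theorem join_window (f fB gB fA gA : ℕ) (hB : gB < f) (hA : f ≤ fA)
    (ts : Multiset (Multiset ℕ))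
    (h : ∀ t ∈ ts, Multiset.card t = 3 ∧ (t.map (prF f)).sum = 1 ∧
      ∀ a ∈ t, inW fB gB a ∨ inW fA gA a) :
    ts.join.countP (inW fB gB) = Multiset.card ts ∧
      ts.join.countP (inW fA gA) = 2 * Multiset.card ts := by
  induction ts using Multiset.induction_on with
  | empty => simp
  | cons t ts ih =>
    obtain ⟨i1, i2⟩ := ih (fun b hb => h b (Multiset.mem_cons_of_mem hb))
    obtain ⟨c3, p1, hw⟩ := h t (Multiset.mem_cons_self _ _)
    obtain ⟨q1, q2⟩ := price_window f fB gB fA gA hB hA t hw
    rw [Multiset.join_cons, Multiset.countP_add, Multiset.countP_add, Multiset.card_cons, i1, i2]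
    constructor <;> omega

/-- Typed reduction: a sub-gadget consisting of positive elements `IB` in one window and
non-positive elements `IA` in another window, which admits at most `K` internal triples, may be
replaced by copies of the least lengths of the two windows (forming a new excluded group). -/
theorem reduce (L f : ℕ) (ex : ℕ → ℕ) (fB gB fA gA g : ℕ) (IB IA R : List ℕ) (m K : ℕ)
    (hfB : fB ≤ gB) (hfA : fA ≤ gA) (hBf : gB < f) (hfA' : f ≤ fA)
    (hIB : ∀ b ∈ IB, inW fB gB b) (hIA : ∀ a ∈ IA, inW fA gA a)
    (hR : ∀ r ∈ R, ¬ inW fB gB r ∧ ¬ inW fA gA r ∧ ex r ≠ g)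
    (hin : ¬ PackX L (fun _ => 0) (prF f) ((IB ++ IA : List ℕ) : Multiset ℕ) (K + 1))
    (hout : ∀ k ≤ K, ¬ PackX L (fun l => if l = fB ∨ l = fA then g else ex l) (prF f)
      ((R ++ (List.replicate (IB.length - k) fB ++ List.replicate (IA.length - 2 * k) fA) :
        List ℕ) : Multiset ℕ) (m - k)) :
    ¬ PackX L ex (prF f) ((IB ++ (IA ++ R) : List ℕ) : Multiset ℕ) m := by
  classical
  rintro ⟨ts, h1, h2, h3⟩
  have hd : gB < fA := lt_of_lt_of_le hBf hfA'
  rw [← Multiset.coe_add, ← Multiset.coe_add] at h3
  let isI : ℕ → Prop := fun l => inW fB gB l ∨ inW fA gA l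
  let isN : ℕ → Prop := fun l => ¬ inW fB gB l ∧ ¬ inW fA gA l
  let φ : ℕ → ℕ := canon fB gB fA gA
  let tsI := ts.filter (fun t => ∀ a ∈ t, isI a)
  let tsO := ts.filter (fun t => ¬ ∀ a ∈ t, isI a)
  have hts : tsI + tsO = ts := Multiset.filter_add_not _ _
  have hjoin : tsI.join + tsO.join = ts.join := by rw [← Multiset.join_add, hts]
  have hcard : Multiset.card tsI + Multiset.card tsO = m := by
    rw [← Multiset.card_add, hts, h1]
  have hBA : ∀ a, inW fB gB a → ¬ inW fA gA a := fun a h h' => by
    have e1 := h.2
    have e2 := h'.1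
    omega
  -- the ground multiset
  have cB : ((IB : Multiset ℕ) + ((IA : Multiset ℕ) + (R : Multiset ℕ))).countP (inW fB gB) =
      IB.length := by
    rw [Multiset.countP_add, Multiset.countP_add,
      Multiset.countP_eq_card.mpr (fun a ha => hIB a (by simpa using ha)),
      Multiset.countP_eq_zero.mpr (fun a ha h => hBA a h (hIA a (by simpa using ha))),
      Multiset.countP_eq_zero.mpr (fun a ha => (hR a (by simpa using ha)).1)]
    simp
  have cA : ((IB : Multiset ℕ) + ((IA : Multiset ℕ) + (R : Multiset ℕ))).countP (inW fA gA) =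
      IA.length := by
    rw [Multiset.countP_add, Multiset.countP_add,
      Multiset.countP_eq_zero.mpr (fun a ha => hBA a (hIB a (by simpa using ha))),
      Multiset.countP_eq_card.mpr (fun a ha => hIA a (by simpa using ha)),
      Multiset.countP_eq_zero.mpr (fun a ha => (hR a (by simpa using ha)).2.1)]
    simp
  have fN : ((IB : Multiset ℕ) + ((IA : Multiset ℕ) + (R : Multiset ℕ))).filter isN = R := by
    rw [Multiset.filter_add, Multiset.filter_add,
      Multiset.filter_eq_nil.mpr (fun a ha h => h.1 (hIB a (by simpa using ha))),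
      Multiset.filter_eq_nil.mpr (fun a ha h => h.2 (hIA a (by simpa using ha))),
      Multiset.filter_eq_self.mpr
        (fun a ha => ⟨(hR a (by simpa using ha)).1, (hR a (by simpa using ha)).2.1⟩)]
    simp
  have fI : ((IB : Multiset ℕ) + ((IA : Multiset ℕ) + (R : Multiset ℕ))).filter isI =
      (IB : Multiset ℕ) + (IA : Multiset ℕ) := by
    rw [Multiset.filter_add, Multiset.filter_add,
      Multiset.filter_eq_self.mpr (fun a ha => Or.inl (hIB a (by simpa using ha))),
      Multiset.filter_eq_self.mpr (fun a ha => Or.inr (hIA a (by simpa using ha))),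
      Multiset.filter_eq_nil.mpr (fun a ha h => by
        rcases h with h | h
        · exact (hR a (by simpa using ha)).1 h
        · exact (hR a (by simpa using ha)).2.1 h)]
    simp
  -- the internal triples
  have hIw : ∀ t ∈ tsI, Multiset.card t = 3 ∧ (t.map (prF f)).sum = 1 ∧
      ∀ a ∈ t, inW fB gB a ∨ inW fA gA a := by
    intro t ht
    have h' := h2 t (Multiset.mem_of_mem_filter ht)
    exact ⟨h'.1, h'.2.2.1, (Multiset.mem_filter.mp ht).2⟩
  obtain ⟨kB, kA⟩ := join_window f fB gB fA gA hBf hfA' tsI hIw
  have hIjoin : tsI.join ≤ (IB : Multiset ℕ) + (IA : Multiset ℕ) := by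
    have e1 : tsI.join.filter isI = tsI.join := by
      rw [Multiset.filter_eq_self]
      intro a ha
      rw [Multiset.mem_join] at ha
      obtain ⟨t, ht, hat⟩ := ha
      exact (hIw t ht).2.2 a hat
    have e2 : tsI.join ≤ (IB : Multiset ℕ) + ((IA : Multiset ℕ) + (R : Multiset ℕ)) := by
      refine le_trans ?_ h3
      rw [← hjoin]
      exact Multiset.le_add_right _ _
    have := Multiset.filter_le_filter isI e2
    rwa [e1, fI] at this
  have hTI : PackX L (fun _ => 0) (prF f) ((IB ++ IA : List ℕ) : Multiset ℕ)
      (Multiset.card tsI) := by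
    refine ⟨tsI, rfl, ?_, by rw [← Multiset.coe_add]; exact hIjoin⟩
    intro t ht
    have h' := h2 t (Multiset.mem_of_mem_filter ht)
    refine ⟨h'.1, h'.2.1, h'.2.2.1, ?_⟩
    rintro ⟨g', hg', hall⟩
    have hpos : 0 < Multiset.card t := by rw [h'.1]; norm_num
    obtain ⟨a, ha⟩ := Multiset.card_pos_iff_exists_mem.mp hpos
    exact hg' (hall a ha).symm
  have hk : Multiset.card tsI ≤ K := by
    by_contra hcon
    exact hin (hTI.mono _ (by omega))
  -- the other triples
  have hφle : ∀ l, φ l ≤ l := by
    intro l
    simp only [φ, canon]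
    split_ifs with h h'
    · exact h.1
    · exact h'.1
    · exact le_rfl
  have hφpr : ∀ l, prF f (φ l) = prF f l := by
    intro l
    simp only [φ, canon]
    split_ifs with h h'
    · have e1 := h.2
      simp only [prF, if_pos (show fB < f by omega), if_pos (show l < f by omega)]
    · have e1 := h'.1
      simp only [prF, if_neg (show ¬ fA < f by omega), if_neg (show ¬ l < f by omega)]
    · rfl
  have sB : tsO.join.countP (inW fB gB) ≤ IB.length - Multiset.card tsI := by
    have := Multiset.countP_le_of_le (inW fB gB) h3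
    rw [← hjoin, Multiset.countP_add, kB, cB] at this
    omega
  have sA : tsO.join.countP (inW fA gA) ≤ IA.length - 2 * Multiset.card tsI := by
    have := Multiset.countP_le_of_le (inW fA gA) h3
    rw [← hjoin, Multiset.countP_add, kA, cA] at this
    omega
  have hN : tsO.join.filter isN ≤ (R : Multiset ℕ) := by
    have e2 : tsO.join ≤ (IB : Multiset ℕ) + ((IA : Multiset ℕ) + (R : Multiset ℕ)) := by
      refine le_trans ?_ h3
      rw [← hjoin]
      exact Multiset.le_add_left _ _
    have := Multiset.filter_le_filter isN e2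
    rwa [fN] at this
  apply hout (Multiset.card tsI) hk
  refine ⟨tsO.map (Multiset.map φ), by rw [Multiset.card_map]; omega, ?_, ?_⟩
  · intro t' ht'
    rw [Multiset.mem_map] at ht'
    obtain ⟨t, ht, rfl⟩ := ht'
    have htts : t ∈ ts := Multiset.mem_of_mem_filter ht
    have h' := h2 t htts
    have hnot := (Multiset.mem_filter.mp ht).2
    push Not at hnot
    obtain ⟨a, ha, hna⟩ := hnot
    have hmemR : ∀ b ∈ t, ¬ isI b → b ∈ R := by
      intro b hb hnb
      have hbj : b ∈ ts.join := Multiset.mem_join.mpr ⟨t, htts, hb⟩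
      have := Multiset.mem_of_le h3 hbj
      rw [Multiset.mem_add, Multiset.mem_add] at this
      rcases this with h | h | h
      · exact absurd (Or.inl (hIB b (by simpa using h))) hnb
      · exact absurd (Or.inr (hIA b (by simpa using h))) hnb
      · simpa using h
    have hφid : ∀ b, ¬ isI b → φ b = b ∧ b ≠ fB ∧ b ≠ fA := by
      intro b hnb
      have n1 : ¬ inW fB gB b := fun h => hnb (Or.inl h)
      have n2 : ¬ inW fA gA b := fun h => hnb (Or.inr h)
      refine ⟨by simp only [φ, canon, if_neg n1, if_neg n2], ?_, ?_⟩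
      · rintro rfl
        exact n1 ⟨le_rfl, hfB⟩
      · rintro rfl
        exact n2 ⟨le_rfl, hfA⟩
    refine ⟨by rw [Multiset.card_map]; exact h'.1, ?_, ?_, ?_⟩
    · refine le_trans ?_ h'.2.1
      have := Multiset.sum_map_le_sum_map φ id (s := t) (fun i _ => hφle i)
      simpa using this
    · rw [Multiset.map_map]
      have : t.map (prF f ∘ φ) = t.map (prF f) := Multiset.map_congr rfl (fun b _ => hφpr b)
      rw [this]
      exact h'.2.2.1
    · rintro ⟨g', hg', hall⟩
      have ea : (if φ a = fB ∨ φ a = fA then g else ex (φ a)) = g' :=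
        hall (φ a) (Multiset.mem_map_of_mem φ ha)
      obtain ⟨a1, a2, a3⟩ := hφid a hna
      rw [a1, if_neg (by tauto)] at ea
      have hgg : g' ≠ g := by
        rw [← ea]
        exact (hR a (hmemR a ha hna)).2.2
      apply h'.2.2.2
      refine ⟨g', hg', ?_⟩
      intro b hb
      have eb : (if φ b = fB ∨ φ b = fA then g else ex (φ b)) = g' :=
        hall (φ b) (Multiset.mem_map_of_mem φ hb)
      by_cases hIb : isI b
      · exfalso
        have : φ b = fB ∨ φ b = fA := by
          rcases hIb with h | h
          · left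
            simp only [φ, canon, if_pos h]
          · right
            simp only [φ, canon, if_neg (fun h'' => hBA b h'' h), if_pos h]
        rw [if_pos this] at eb
        exact hgg eb.symm
      · obtain ⟨b1, b2, b3⟩ := hφid b hIb
        rw [b1, if_neg (by tauto)] at eb
        exact eb
  · rw [← Multiset.map_join, map_canon fB gB fA gA hd, ← Multiset.coe_add, ← Multiset.coe_add,
      Multiset.coe_replicate, Multiset.coe_replicate]
    apply add_le_add hN
    apply add_le_add
    · rw [Multiset.replicate_le_replicate]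
      exact sB
    · rw [Multiset.replicate_le_replicate]
      exact sA

theorem card_le_sum_of_one_le (ps : Multiset ℕ) (h1 : ∀ x ∈ ps, 1 ≤ x) :
    Multiset.card ps ≤ ps.sum := by
  induction ps using Multiset.induction_on with
  | empty => simp
  | cons a s ih =>
    have := ih (fun x hx => h1 x (Multiset.mem_cons_of_mem hx))
    have ha := h1 a (Multiset.mem_cons_self _ _)
    rw [Multiset.card_cons, Multiset.sum_cons]
    omega

theorem all_one (ps : Multiset ℕ) (h1 : ∀ x ∈ ps, 1 ≤ x) (h2 : ps.sum ≤ Multiset.card ps) :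
    ∀ x ∈ ps, x = 1 := by
  induction ps using Multiset.induction_on with
  | empty => simp
  | cons a s ih =>
    have hs := card_le_sum_of_one_le s (fun x hx => h1 x (Multiset.mem_cons_of_mem hx))
    have ha := h1 a (Multiset.mem_cons_self _ _)
    rw [Multiset.card_cons, Multiset.sum_cons] at h2
    intro x hx
    rcases Multiset.mem_cons.mp hx with rfl | hx'
    · omega
    · exact ih (fun x hx => h1 x (Multiset.mem_cons_of_mem hx)) (by omega) x hx'

/-- a packing that uses up the whole price consists of triples of price exactly one -/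
theorem packX_of_packF {L f : ℕ} {pr : ℕ → ℕ} {s : Multiset ℕ} {m : ℕ}
    (h : TriplePackF L f 1 pr s m) (hs : (s.map pr).sum ≤ m) :
    PackX L (fun _ => 0) pr s m := by
  obtain ⟨ts, h1, h2, h3⟩ := h
  have e1 : ((ts.join).map pr).sum = (ts.map (fun t => (t.map pr).sum)).sum := by
    rw [Multiset.map_join, Multiset.sum_join, Multiset.map_map]
    rfl
  have e2 : ((ts.join).map pr).sum ≤ (s.map pr).sum := by
    obtain ⟨u, rfl⟩ := Multiset.le_iff_exists_add.mp h3
    rw [Multiset.map_add, Multiset.sum_add]
    omega
  have e3 := all_one (ts.map (fun t => (t.map pr).sum))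
    (by
      intro x hx
      obtain ⟨t, ht, rfl⟩ := Multiset.mem_map.mp hx
      exact (h2 t ht).2.2.2)
    (by rw [Multiset.card_map]; omega)
  refine ⟨ts, h1, ?_, h3⟩
  intro t ht
  have h' := h2 t ht
  refine ⟨h'.1, h'.2.1, e3 _ (Multiset.mem_map_of_mem _ ht), ?_⟩
  rintro ⟨g', hg', hall⟩
  have hpos : 0 < Multiset.card t := by rw [h'.1]; norm_num
  obtain ⟨a, ha⟩ := Multiset.card_pos_iff_exists_mem.mp hpos
  exact hg' (hall a ha).symm

/-- the wrap lemma with an abstract hypothesis on the outer gadget -/
theorem wrapX (L f g e : ℕ) (zs ys : List ℕ) (νY P : ℕ) (hfg : f ≤ g)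
    (hY : ∀ y ∈ ys, f ≤ y ∧ y ≤ g)
    (hZ : ∀ z ∈ zs, z < f ∨ (g < z ∧ L < 2 * f + z))
    (hP : (zs.map (prF f)).sum = P)
    (hs : ¬ PackX L (fun _ => 0) (prF f) ((zs ++ List.replicate e f : List ℕ) : Multiset ℕ) P)
    (hν : ¬ TriplePack L (ys : Multiset ℕ) (νY + 1))
    (hlen : ys.length ≤ 3 * νY + e) :
    ¬ TriplePack L ((zs ++ ys : List ℕ) : Multiset ℕ) (νY + P) := by
  classical
  rintro ⟨ts, h1, h2, h3⟩
  rw [← Multiset.coe_add] at h3
  let isY : ℕ → Prop := fun l => f ≤ l ∧ l ≤ g
  let φ : ℕ → ℕ := fun l => if isY l then f else l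
  let tsY := ts.filter (fun t => ∀ a ∈ t, isY a)
  let tsZ := ts.filter (fun t => ¬ ∀ a ∈ t, isY a)
  have hts : tsY + tsZ = ts := Multiset.filter_add_not _ _
  have hjoin : tsY.join + tsZ.join = ts.join := by rw [← Multiset.join_add, hts]
  have hcard : Multiset.card tsY + Multiset.card tsZ = νY + P := by
    rw [← Multiset.card_add, hts, h1]
  -- the two parts of the ground multiset
  have hzsY : (zs : Multiset ℕ).filter isY = 0 := by
    rw [Multiset.filter_eq_nil]
    intro a ha hYa
    have ha' : a ∈ zs := by simpa using ha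
    rcases hZ a ha' with h | h
    · exact absurd hYa.1 (by omega)
    · exact absurd hYa.2 (by omega)
  have hysY : (ys : Multiset ℕ).filter isY = ys := by
    rw [Multiset.filter_eq_self]
    intro a ha
    exact hY a (by simpa using ha)
  have hzsN : (zs : Multiset ℕ).filter (fun l => ¬ isY l) = zs := by
    rw [Multiset.filter_eq_self]
    intro a ha hYa
    have ha' : a ∈ zs := by simpa using ha
    rcases hZ a ha' with h | h
    · exact absurd hYa.1 (by omega)
    · exact absurd hYa.2 (by omega)
  have hysN : (ys : Multiset ℕ).filter (fun l => ¬ isY l) = 0 := by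
    rw [Multiset.filter_eq_nil]
    intro a ha hn
    exact hn (hY a (by simpa using ha))
  have hYjoin : tsY.join.filter isY = tsY.join := by
    rw [Multiset.filter_eq_self]
    intro a ha
    rw [Multiset.mem_join] at ha
    obtain ⟨t, ht, hat⟩ := ha
    exact (Multiset.mem_filter.mp ht).2 a hat
  have hYjoinN : tsY.join.filter (fun l => ¬ isY l) = 0 := by
    rw [Multiset.filter_eq_nil]
    intro a ha hn
    rw [Multiset.mem_join] at ha
    obtain ⟨t, ht, hat⟩ := ha
    exact hn ((Multiset.mem_filter.mp ht).2 a hat)
  have hA : tsY.join + tsZ.join.filter isY ≤ (ys : Multiset ℕ) := by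
    have := Multiset.filter_le_filter isY h3
    rwa [← hjoin, Multiset.filter_add, Multiset.filter_add, hzsY, hysY, hYjoin, zero_add] at this
  have hB : tsZ.join.filter (fun l => ¬ isY l) ≤ (zs : Multiset ℕ) := by
    have := Multiset.filter_le_filter (fun l => ¬ isY l) h3
    rwa [← hjoin, Multiset.filter_add, Multiset.filter_add, hzsN, hysN, hYjoinN, zero_add,
      add_zero] at this
  set s := Multiset.card (tsZ.join.filter isY) with hsdef
  -- the inner part
  have hTY : TriplePack L (ys : Multiset ℕ) (Multiset.card tsY) :=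
    ⟨tsY, rfl, fun t ht => h2 t (Multiset.mem_of_mem_filter ht),
      le_trans (Multiset.le_add_right _ _) hA⟩
  have hcY : 3 * Multiset.card tsY + s ≤ ys.length := by
    have e1 : Multiset.card tsY.join = 3 * Multiset.card tsY := by
      rw [Multiset.card_join]
      have : tsY.map Multiset.card = tsY.map (fun _ => 3) :=
        Multiset.map_congr rfl (fun t ht => (h2 t (Multiset.mem_of_mem_filter ht)).1)
      rw [this, Multiset.map_const', Multiset.sum_replicate, smul_eq_mul, mul_comm]
    have := Multiset.card_le_card hA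
    rw [Multiset.card_add, e1, Multiset.coe_card] at this
    exact this
  have hYle : Multiset.card tsY ≤ νY := by
    by_contra hcon
    exact hν (hTY.mono _ (by omega))
  -- the outer part
  have hφle : ∀ l, φ l ≤ l := by
    intro l
    simp only [φ]
    split_ifs with h
    · exact h.1
    · exact le_rfl
  have hφpr : ∀ l, l < f → prF f (φ l) = 1 := by
    intro l hl
    have : ¬ isY l := fun h => absurd h.1 (by omega)
    simp only [φ, if_neg this, prF, if_pos hl]
  have hmapjoin : (tsZ.map (Multiset.map φ)).join =
      tsZ.join.filter (fun l => ¬ isY l) + Multiset.replicate s f := by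
    rw [← Multiset.map_join]
    conv_lhs => rw [← Multiset.filter_add_not isY tsZ.join]
    rw [Multiset.map_add, add_comm]
    congr 1
    · have : (tsZ.join.filter (fun l => ¬ isY l)).map φ =
          (tsZ.join.filter (fun l => ¬ isY l)).map id :=
        Multiset.map_congr rfl (fun x hx => if_neg (Multiset.mem_filter.mp hx).2)
      rw [this, Multiset.map_id]
    · have : (tsZ.join.filter isY).map φ = (tsZ.join.filter isY).map (fun _ => f) :=
        Multiset.map_congr rfl (fun x hx => if_pos (Multiset.mem_filter.mp hx).2)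
      rw [this, Multiset.map_const']
  have hTZ : TriplePackF L f 1 (prF f) ((zs : Multiset ℕ) + Multiset.replicate s f)
      (Multiset.card tsZ) := by
    refine ⟨tsZ.map (Multiset.map φ), Multiset.card_map _ _, ?_, ?_⟩
    · intro t' ht'
      rw [Multiset.mem_map] at ht'
      obtain ⟨t, ht, rfl⟩ := ht'
      have htts : t ∈ ts := Multiset.mem_of_mem_filter ht
      have hnot := (Multiset.mem_filter.mp ht).2
      push Not at hnot
      obtain ⟨a, ha, hna⟩ := hnot
      have hajoin : a ∈ ts.join := Multiset.mem_join.mpr ⟨t, htts, ha⟩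
      have hazs : a ∈ zs := by
        have := Multiset.mem_of_le h3 hajoin
        rw [Multiset.mem_add] at this
        rcases this with h | h
        · simpa using h
        · exact absurd (hY a (by simpa using h)) hna
      have ht3 := h2 t htts
      obtain ⟨t', rfl⟩ := Multiset.exists_cons_of_mem ha
      have hc2 : Multiset.card t' = 2 := by
        have := ht3.1
        rw [Multiset.card_cons] at this
        omega
      rw [Multiset.card_eq_two] at hc2
      obtain ⟨b, c, rfl⟩ := hc2
      have hsum : a + b + c ≤ L := by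
        have := ht3.2
        simp only [Multiset.sum_cons, Multiset.insert_eq_cons, Multiset.sum_singleton] at this
        omega
      have hφa : φ a = a := if_neg hna
      have hb := hφle b
      have hc := hφle c
      refine ⟨by rw [Multiset.card_map]; exact ht3.1, ?_, ⟨a, ?_, ?_⟩, ?_⟩
      · simp only [Multiset.map_cons, Multiset.sum_cons, Multiset.insert_eq_cons,
          Multiset.map_singleton, Multiset.sum_singleton, hφa]
        omega
      · simp only [Multiset.map_cons, hφa, Multiset.mem_cons, true_or]
      · rintro rfl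
        exact hna ⟨le_rfl, hfg⟩
      · simp only [Multiset.map_cons, Multiset.sum_cons, Multiset.insert_eq_cons,
          Multiset.map_singleton, Multiset.sum_singleton, hφa]
        rcases hZ a hazs with h | h
        · have : prF f a = 1 := by simp only [prF, if_pos h]
          omega
        · rcases Nat.lt_or_ge b f with hbf | hbf
          · have := hφpr b hbf
            omega
          · rcases Nat.lt_or_ge c f with hcf | hcf
            · have := hφpr c hcf
              omega
            · omega
    · rw [hmapjoin]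
      exact add_le_add_left hB _
  have hprf : prF f f = 0 := by simp [prF]
  have hsumpr : ∀ k, ((zs ++ List.replicate k f).map (prF f)).sum = P := by
    intro k
    rw [List.map_append, List.sum_append, hP, List.map_replicate, List.sum_replicate, hprf]
    simp
  have hZle : Multiset.card tsZ ≤ P := by
    have := hTZ.price_le
    rw [← Multiset.coe_replicate, Multiset.coe_add, Multiset.map_coe, Multiset.sum_coe,
      hsumpr] at this
    omega
  rcases Nat.lt_or_ge e s with hse | hse
  · omega
  · have hTZ' : TriplePackF L f 1 (prF f) ((zs ++ List.replicate e f : List ℕ) : Multiset ℕ)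
        (Multiset.card tsZ) := by
      obtain ⟨us, u1, u2, u3⟩ := hTZ
      refine ⟨us, u1, u2, le_trans u3 ?_⟩
      rw [← Multiset.coe_add, Multiset.coe_replicate]
      apply add_le_add_right
      rw [Multiset.replicate_le_replicate]
      exact hse
    have hne : Multiset.card tsZ ≠ P := by
      intro heq
      rw [heq] at hTZ'
      exact hs (packX_of_packF hTZ' (by rw [Multiset.map_coe, Multiset.sum_coe, hsumpr]))
    omega

/-- sorting key: the positive elements first, by increasing value, then the others -/
def skey (f l : ℕ) : ℕ := if l < f then f - l else l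

/-- the list sorted by `skey` -/
def ksort (f : ℕ) (ls : List ℕ) : List ℕ :=
  ls.insertionSort (fun a b => skey f a ≤ skey f b)

theorem noPackX_sorted (L f : ℕ) (ex : ℕ → ℕ) (fuel : ℕ) (ls : List ℕ) (bud m : ℕ)
    (hb : ((ksort f ls).map (prF f)).sum ≤ bud + m)
    (hs : xsearch L ex (prF f) fuel (ksort f ls) bud = false) :
    ¬ PackX L ex (prF f) (ls : Multiset ℕ) m := by
  have : ((ksort f ls : List ℕ) : Multiset ℕ) = ls :=
    Multiset.coe_eq_coe.mpr (List.perm_insertionSort _ _)
  rw [← this]
  exact noPackX_of_xsearch L ex (prF f) fuel _ bud m hb hs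

/-- the groups after two reductions -/
def ex2 (fB fA fB2 fA2 : ℕ) : ℕ → ℕ :=
  fun l => if l = fB2 ∨ l = fA2 then 2 else (fun l => if l = fB ∨ l = fA then 1 else 0) l

/-- the ground list after two reductions -/
def ground2 (fB fA fB2 fA2 nB nA nB2 nA2 : ℕ) (R : List ℕ) (k k2 : ℕ) : List ℕ :=
  (R ++ (List.replicate (nB - k) fB ++ List.replicate (nA - 2 * k) fA)) ++
    (List.replicate (nB2 - k2) fB2 ++ List.replicate (nA2 - 2 * k2) fA2)

/-- the final check after two reductions -/
def finCheck (L f fB fA fB2 fA2 nB nA nB2 nA2 : ℕ) (R : List ℕ) (m bud fuel k k2 : ℕ) : Bool :=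
  Nat.ble (((ksort f (ground2 fB fA fB2 fA2 nB nA nB2 nA2 R k k2)).map (prF f)).sum)
      (bud + (m - k - k2)) &&
    !(xsearch L (ex2 fB fA fB2 fA2) (prF f) fuel
      (ksort f (ground2 fB fA fB2 fA2 nB nA nB2 nA2 R k k2)) bud)

/-- two typed reductions followed by a search -/
theorem reduce2 (L f fB gB fA gA fB2 gB2 fA2 gA2 : ℕ) (IB IA OB OA R : List ℕ)
    (m K K2 bud fuel : ℕ)
    (w1 : fB ≤ gB ∧ fA ≤ gA ∧ gB < f ∧ f ≤ fA)
    (w2 : fB2 ≤ gB2 ∧ fA2 ≤ gA2 ∧ gB2 < f ∧ f ≤ fA2)
    (hIB : ∀ b ∈ IB, inW fB gB b) (hIA : ∀ a ∈ IA, inW fA gA a)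
    (hOB : ∀ b ∈ OB, inW fB2 gB2 b ∧ ¬ inW fB gB b ∧ ¬ inW fA gA b)
    (hOA : ∀ a ∈ OA, inW fA2 gA2 a ∧ ¬ inW fB gB a ∧ ¬ inW fA gA a)
    (hR : ∀ r ∈ R, ¬ inW fB gB r ∧ ¬ inW fA gA r ∧ ¬ inW fB2 gB2 r ∧ ¬ inW fA2 gA2 r)
    (hc : ¬ inW fB2 gB2 fB ∧ ¬ inW fA2 gA2 fB ∧ ¬ inW fB2 gB2 fA ∧ ¬ inW fA2 gA2 fA)
    (hin1 : ¬ PackX L (fun _ => 0) (prF f) ((IB ++ IA : List ℕ) : Multiset ℕ) (K + 1))
    (hin2 : ¬ PackX L (fun _ => 0) (prF f) ((OB ++ OA : List ℕ) : Multiset ℕ) (K2 + 1))
    (hfin : ∀ k ≤ K, ∀ k2 ≤ K2, finCheck L f fB fA fB2 fA2 IB.length IA.length OB.length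
      OA.length R m bud fuel k k2 = true) :
    ¬ PackX L (fun _ => 0) (prF f) ((IB ++ (IA ++ (OB ++ (OA ++ R))) : List ℕ) : Multiset ℕ) m := by
  apply reduce L f (fun _ => 0) fB gB fA gA 1 IB IA (OB ++ (OA ++ R)) m K w1.1 w1.2.1 w1.2.2.1
    w1.2.2.2 hIB hIA _ hin1
  · intro k hk
    rw [List.append_assoc, List.append_assoc]
    apply reduce L f (fun l => if l = fB ∨ l = fA then 1 else 0) fB2 gB2 fA2 gA2 2 OB OA
      (R ++ (List.replicate (IB.length - k) fB ++ List.replicate (IA.length - 2 * k) fA))
      (m - k) K2 w2.1 w2.2.1 w2.2.2.1 w2.2.2.2 (fun b hb => (hOB b hb).1)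
      (fun a ha => (hOA a ha).1) _ hin2
    · intro k2 hk2
      have h := hfin k hk k2 hk2
      rw [finCheck, Bool.and_eq_true, Nat.ble_eq, Bool.not_eq_true'] at h
      exact noPackX_sorted L f _ fuel _ bud (m - k - k2) h.1 h.2
    · intro r hr
      have hne : (if r = fB ∨ r = fA then 1 else 0) ≠ 2 := by split_ifs <;> norm_num
      rw [List.mem_append, List.mem_append] at hr
      rcases hr with hr | hr | hr
      · exact ⟨(hR r hr).2.2.1, (hR r hr).2.2.2, hne⟩
      · obtain rfl := (List.mem_replicate.mp hr).2
        exact ⟨hc.1, hc.2.1, hne⟩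
      · obtain rfl := (List.mem_replicate.mp hr).2
        exact ⟨hc.2.2.1, hc.2.2.2, hne⟩
  · intro r hr
    rw [List.mem_append, List.mem_append] at hr
    rcases hr with hr | hr | hr
    · exact ⟨(hOB r hr).2.1, (hOB r hr).2.2, by norm_num⟩
    · exact ⟨(hOA r hr).2.1, (hOA r hr).2.2, by norm_num⟩
    · exact ⟨(hR r hr).1, (hR r hr).2.1, by norm_num⟩

end Vale.Agent.Lib.P302
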