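import Vale.Agent.Lib.P302.Dual

/-!
# P302: the volume bound for the configuration LP, and explicit packings
-/

namespace Vale.Agent.Lib.P302

open Finset

/-- volume bound: every feasible solution of the configuration LP has value at least the total
size of the items -/
theorem vol_le_of_fracSol {I : List ℚ} {z : (ℚ →₀ ℕ) →₀ ℝ} (hI : ∀ a ∈ I, 0 ≤ a)
    (hz : IsFracSol I z) : ((I.sum : ℚ) : ℝ) ≤ z.sum (fun _ w => w) := by
  classical
  have e1 : ((I.sum : ℚ) : ℝ) = ∑ σ ∈ I.toFinset, (I.count σ : ℝ) * (σ : ℝ) := by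
    have h := Finset.sum_list_map_count I (fun σ : ℚ => (σ : ℝ))
    simp only [nsmul_eq_mul] at h
    rw [← h]
    exact map_list_sum (Rat.castHom ℝ) I
  have e2 : ∀ σ ∈ I.toFinset,
      (I.count σ : ℝ) * (σ : ℝ) ≤ (∑ c ∈ z.support, (c σ : ℝ) * z c) * (σ : ℝ) := by
    intro σ hσ
    have hσ' : σ ∈ I := List.mem_toFinset.mp hσ
    apply mul_le_mul_of_nonneg_right _ (by exact_mod_cast hI σ hσ')
    exact hz.2.2 σ hσ'
  have e3 : ∑ σ ∈ I.toFinset, (∑ c ∈ z.support, (c σ : ℝ) * z c) * (σ : ℝ) =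
      ∑ c ∈ z.support, z c * ∑ σ ∈ I.toFinset, (c σ : ℝ) * (σ : ℝ) := by
    simp_rw [Finset.sum_mul, Finset.mul_sum]
    rw [Finset.sum_comm]
    apply Finset.sum_congr rfl
    intro c _
    apply Finset.sum_congr rfl
    intro σ _
    ring
  have e4 : ∀ c ∈ z.support, ∑ σ ∈ I.toFinset, (c σ : ℝ) * (σ : ℝ) ≤ 1 := by
    intro c hc
    have hcfg := hz.2.1 c hc
    have hsub : c.support ⊆ I.toFinset := fun σ hσ => List.mem_toFinset.mpr (hcfg.1 σ hσ)
    have h1 : ∑ σ ∈ I.toFinset, (c σ : ℝ) * (σ : ℝ) = ∑ σ ∈ c.support, (c σ : ℝ) * (σ : ℝ) := by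
      symm
      apply Finset.sum_subset hsub
      intro σ _ hσ
      rw [Finsupp.notMem_support_iff.mp hσ]
      simp
    have h2 : ∑ σ ∈ c.support, (c σ : ℝ) * (σ : ℝ) =
        ((c.sum (fun σ m => σ * (m : ℚ)) : ℚ) : ℝ) := by
      rw [Finsupp.sum]
      push_cast
      apply Finset.sum_congr rfl
      intro σ _
      ring
    rw [h1, h2]
    exact_mod_cast hcfg.2
  calc ((I.sum : ℚ) : ℝ) = ∑ σ ∈ I.toFinset, (I.count σ : ℝ) * (σ : ℝ) := e1
    _ ≤ ∑ σ ∈ I.toFinset, (∑ c ∈ z.support, (c σ : ℝ) * z c) * (σ : ℝ) := Finset.sum_le_sum e2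
    _ = ∑ c ∈ z.support, z c * ∑ σ ∈ I.toFinset, (c σ : ℝ) * (σ : ℝ) := e3
    _ ≤ ∑ c ∈ z.support, z c * 1 :=
        Finset.sum_le_sum (fun c hc => mul_le_mul_of_nonneg_left (e4 c hc) (hz.1 c))
    _ = z.sum (fun _ w => w) := by simp [Finsupp.sum]

/-- total size of the instance `sizes L ls` -/
theorem sizes_sum (L : ℕ) (ls : List ℕ) : (sizes L ls).sum = (ls.sum : ℚ) / L := by
  induction ls with
  | nil => simp [sizes]
  | cons a t ih =>
    have : sizes L (a :: t) = ((a : ℚ) / L) :: sizes L t := rfl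
    rw [this, List.sum_cons, ih, List.sum_cons]
    push_cast
    ring

/-- an explicit assignment of the lengths to `k` bins gives a packing of the sizes -/
theorem exists_packing_of_nat {L : ℕ} (hL : 0 < L) (ls : List ℕ) (k : ℕ)
    (g : Fin ls.length → Fin k)
    (hg : ∀ b : Fin k, (∑ i : Fin ls.length, if g i = b then ls.get i else 0) ≤ L) :
    ∃ f : Fin (sizes L ls).length → Fin k, IsPacking (sizes L ls) k f := by
  have hlen : (sizes L ls).length = ls.length := by simp [sizes]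
  refine ⟨fun i => g (Fin.cast hlen i), ?_⟩
  intro b
  have h2 : (∑ i : Fin (sizes L ls).length,
      if g (Fin.cast hlen i) = b then (sizes L ls).get i else 0) =
      ∑ i : Fin ls.length, if g i = b then ((ls.get i : ℕ) : ℚ) / L else 0 := by
    rw [← Equiv.sum_comp (finCongr hlen.symm)]
    apply Finset.sum_congr rfl
    intro i _
    simp only [sizes, List.get_eq_getElem, List.getElem_map]
    rfl
  rw [h2]
  have h3 : (∑ i : Fin ls.length, if g i = b then ((ls.get i : ℕ) : ℚ) / L else 0) =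
      ((∑ i : Fin ls.length, if g i = b then ls.get i else 0 : ℕ) : ℚ) / L := by
    rw [Nat.cast_sum, Finset.sum_div]
    apply Finset.sum_congr rfl
    intro i _
    split_ifs <;> simp
  rw [h3, div_le_one (by exact_mod_cast hL)]
  exact_mod_cast hg b

end Vale.Agent.Lib.P302
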