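import Vale.Agent.Lib.P302.Framework

namespace Vale.Agent.Lib.P302

open Finset

/-- `m` disjoint triples inside `s`, each of total length at most `L`, not consisting of three
copies of the filler `f`, and each of total price at least `D`. -/
def TriplePackF (L f D : ℕ) (pr : ℕ → ℕ) (s : Multiset ℕ) (m : ℕ) : Prop :=
  ∃ ts : Multiset (Multiset ℕ), Multiset.card ts = m ∧
    (∀ t ∈ ts, Multiset.card t = 3 ∧ t.sum ≤ L ∧ (∃ a ∈ t, a ≠ f) ∧ D ≤ (t.map pr).sum) ∧
    ts.join ≤ s

theorem nbeq_false (a b : ℕ) : (Nat.beq a b = false) ↔ a ≠ b := by
  rw [ne_eq, ← Nat.beq_eq, Bool.not_eq_true]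

/-- removes adjacent repetitions -/
def dd : List ℕ → List ℕ
  | [] => []
  | [a] => [a]
  | a :: b :: t => if Nat.beq a b then dd (b :: t) else a :: dd (b :: t)

theorem mem_dd : ∀ (l : List ℕ) (a : ℕ), a ∈ l → a ∈ dd l
  | [], _, h => h
  | [_], _, h => h
  | x :: y :: t, a, h => by
    rw [dd]
    split_ifs with hxy
    · have hxy' : x = y := Nat.eq_of_beq_eq_true hxy
      apply mem_dd (y :: t) a
      rcases List.mem_cons.mp h with rfl | h'
      · rw [hxy']; exact List.mem_cons_self
      · exact h'
    · rcases List.mem_cons.mp h with rfl | h'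
      · exact List.mem_cons_self
      · exact List.mem_cons_of_mem _ (mem_dd (y :: t) a h')

/-- depth-first search with a price budget: leaving an item costs its price, a triple costs its
price minus `D`. -/
def bsearch (L f D : ℕ) (pr : ℕ → ℕ) : ℕ → List ℕ → ℕ → Bool
  | 0, _, _ => true
  | _ + 1, [], _ => true
  | fuel + 1, x :: rest, bud =>
    (Nat.ble (pr x) bud && bsearch L f D pr fuel rest (bud - pr x)) ||
      (dd rest).any (fun y => Nat.ble (pr x + pr y) (bud + D) && (dd rest).any (fun z =>
        Nat.ble z y && Nat.ble (x + y + z) L && Nat.ble (pr x + pr y + pr z) (bud + D) &&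
        !(Nat.beq x f && Nat.beq y f && Nat.beq z f) &&
        (!(Nat.beq z y) || Nat.ble 2 (rest.count y)) &&
          bsearch L f D pr fuel ((rest.erase y).erase z) (bud + D - (pr x + pr y + pr z))))

theorem TriplePackF.price_le {L f D : ℕ} {pr : ℕ → ℕ} {s : Multiset ℕ} {m : ℕ}
    (h : TriplePackF L f D pr s m) : m * D ≤ (s.map pr).sum := by
  obtain ⟨ts, h1, h2, h3⟩ := h
  have h4 : m * D ≤ ((ts.join).map pr).sum := by
    rw [← h1]
    clear h1 h3
    induction ts using Multiset.induction_on with
    | empty => simp
    | cons t ts ih =>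
      rw [Multiset.card_cons, Multiset.join_cons, Multiset.map_add, Multiset.sum_add]
      have := ih (fun t' ht' => h2 t' (Multiset.mem_cons_of_mem ht'))
      have h5 := (h2 t (Multiset.mem_cons_self _ _)).2.2.2
      nlinarith
  obtain ⟨u, rfl⟩ := Multiset.le_iff_exists_add.mp h3
  rw [Multiset.map_add, Multiset.sum_add]
  omega

theorem bsearch_complete (L f D : ℕ) (pr : ℕ → ℕ) : ∀ (fuel : ℕ) (ls : List ℕ) (bud m : ℕ),
    TriplePackF L f D pr (ls : Multiset ℕ) m → (ls.map pr).sum ≤ bud + m * D →
    bsearch L f D pr fuel ls bud = true := by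
  intro fuel
  induction fuel with
  | zero => intro ls bud m _ _; simp [bsearch]
  | succ fuel ih =>
    intro ls bud m h hb
    match ls with
    | [] => simp [bsearch]
    | x :: rest =>
      have hprice := h.price_le
      obtain ⟨ts, h1, h2, h3⟩ := h
      rw [bsearch]
      simp only [Bool.and_eq_true, Nat.ble_eq, Bool.or_eq_true, List.any_eq_true]
      simp only [List.map_cons, List.sum_cons] at hb
      by_cases hx : ts.join ≤ (rest : Multiset ℕ)
      · left
        have hr : TriplePackF L f D pr (rest : Multiset ℕ) m := ⟨ts, h1, h2, hx⟩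
        have := hr.price_le
        simp only [Multiset.map_coe, Multiset.sum_coe] at this
        exact ⟨by omega, ih rest (bud - pr x) m hr (by omega)⟩
      · right
        have hxmem : x ∈ ts.join := by
          by_contra hcon
          apply hx
          rw [← Multiset.cons_coe] at h3
          exact (Multiset.le_cons_of_notMem hcon).mp h3
        rw [Multiset.mem_join] at hxmem
        obtain ⟨t, ht, hxt⟩ := hxmem
        obtain ⟨ts', rfl⟩ := Multiset.exists_cons_of_mem ht
        obtain ⟨t', rfl⟩ := Multiset.exists_cons_of_mem hxt
        have ht3 := h2 (x ::ₘ t') (Multiset.mem_cons_self _ _)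
        have hc2 : Multiset.card t' = 2 := by
          have := ht3.1
          rw [Multiset.card_cons] at this
          omega
        rw [Multiset.card_eq_two] at hc2
        obtain ⟨a, b, rfl⟩ := hc2
        wlog hab : b ≤ a generalizing a b
        · have hba : a ≤ b := le_of_not_ge hab
          have hswap : ({a, b} : Multiset ℕ) = {b, a} := Multiset.pair_comm a b
          rw [hswap] at h1 h2 h3 ht hxt ht3 hx
          exact this b a hxt h1 h2 h3 hx ht ht3 hba
        have hsum : x + a + b ≤ L := by
          have := ht3.2.1
          simp only [Multiset.sum_cons, Multiset.insert_eq_cons, Multiset.sum_singleton] at this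
          omega
        have hnf : ¬ (x = f ∧ a = f ∧ b = f) := by
          rintro ⟨rfl, rfl, rfl⟩
          obtain ⟨c, hc, hcf⟩ := ht3.2.2.1
          simp only [Multiset.insert_eq_cons, Multiset.mem_cons, Multiset.mem_singleton] at hc
          rcases hc with h | h | h <;> exact hcf h
        have hpt : D ≤ pr x + pr a + pr b := by
          have := ht3.2.2.2
          simp only [Multiset.map_cons, Multiset.sum_cons, Multiset.insert_eq_cons,
            Multiset.map_singleton, Multiset.sum_singleton] at this
          omega
        rw [Multiset.join_cons, ← Multiset.cons_coe, Multiset.cons_add,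
          Multiset.cons_le_cons_iff] at h3
        have hpair : ({a, b} : Multiset ℕ) ≤ (rest : Multiset ℕ) :=
          le_trans (Multiset.le_add_right _ _) h3
        have ha : a ∈ rest := by
          have : a ∈ (rest : Multiset ℕ) := Multiset.mem_of_le hpair (by simp)
          simpa using this
        have hb' : ({b} : Multiset ℕ) ≤ ((rest.erase a : List ℕ) : Multiset ℕ) := by
          rw [← Multiset.coe_erase]
          have := Multiset.erase_le_erase a hpair
          simpa [Multiset.insert_eq_cons] using this
        have hbm : b ∈ rest.erase a := by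
          have : b ∈ ((rest.erase a : List ℕ) : Multiset ℕ) := Multiset.mem_of_le hb' (by simp)
          simpa using this
        rw [Multiset.card_cons] at h1
        obtain ⟨m', rfl⟩ : ∃ m', m = m' + 1 := ⟨Multiset.card ts', h1.symm⟩
        have hr : TriplePackF L f D pr (((rest.erase a).erase b : List ℕ) : Multiset ℕ) m' := by
          refine ⟨ts', by omega, fun t ht' => h2 t (Multiset.mem_cons_of_mem ht'), ?_⟩
          rw [← Multiset.coe_erase, ← Multiset.coe_erase]
          have h5 := Multiset.erase_le_erase b (Multiset.erase_le_erase a h3)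
          have h6 : ((({a, b} : Multiset ℕ) + ts'.join).erase a).erase b = ts'.join := by
            simp [Multiset.insert_eq_cons]
          rwa [h6] at h5
        have hpr := hr.price_le
        simp only [Multiset.map_coe, Multiset.sum_coe] at hpr
        -- sum of prices splits
        have hsplit : (rest.map pr).sum = pr a + pr b + (((rest.erase a).erase b).map pr).sum := by
          have e1 : (rest.map pr).sum = pr a + ((rest.erase a).map pr).sum := by
            have := List.sum_map_erase pr ha
            omega
          have e2 : ((rest.erase a).map pr).sum = pr b + (((rest.erase a).erase b).map pr).sum := by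
            have := List.sum_map_erase pr hbm
            omega
          omega
        have hD : (m' + 1) * D = m' * D + D := by ring
        refine ⟨a, mem_dd _ _ ha, by omega, b, mem_dd _ _ (List.mem_of_mem_erase hbm),
          ⟨⟨⟨⟨⟨hab, hsum⟩, by omega⟩, ?_⟩, ?_⟩, ?_⟩⟩
        · simp only [Bool.not_eq_true', Bool.and_eq_false_iff, nbeq_false, ne_eq]
          by_contra hcon
          push Not at hcon
          exact hnf ⟨hcon.1.1, hcon.1.2, hcon.2⟩
        · by_cases hba : b = a
          · right
            subst hba
            have h7 : 0 < List.count b (rest.erase b) := List.count_pos_iff.mpr hbm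
            rw [List.count_erase_self] at h7
            omega
          · left
            simp only [Bool.not_eq_true', nbeq_false, ne_eq]
            exact hba
        · exact ih _ _ m' hr (by omega)

theorem TriplePack.pred {L : ℕ} {s : Multiset ℕ} {m : ℕ} (h : TriplePack L s (m + 1)) :
    TriplePack L s m := by
  obtain ⟨ts, h1, h2, h3⟩ := h
  obtain ⟨t, ts', rfl, hc⟩ := Multiset.card_eq_succ_iff.mp h1
  refine ⟨ts', hc, fun u hu => h2 u (Multiset.mem_cons_of_mem hu), ?_⟩
  rw [Multiset.join_cons] at h3
  exact le_trans (Multiset.le_add_left _ _) h3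

theorem TriplePack.mono {L : ℕ} {s : Multiset ℕ} {m : ℕ} (h : TriplePack L s m) :
    ∀ m' ≤ m, TriplePack L s m' := by
  induction m with
  | zero =>
    intro m' hm'
    obtain rfl : m' = 0 := by omega
    exact h
  | succ k ih =>
    intro m' hm'
    rcases Nat.lt_or_ge k m' with h' | h'
    · obtain rfl : m' = k + 1 := by omega
      exact h
    · exact ih h.pred m' h'

/-- price `1` for the items shorter than the filler, `0` for the others -/
def prF (f : ℕ) (l : ℕ) : ℕ := if l < f then 1 else 0

theorem wrap (L f g e fuel : ℕ) (zs ys : List ℕ) (νY P : ℕ) (hfg : f ≤ g)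
    (hY : ∀ y ∈ ys, f ≤ y ∧ y ≤ g)
    (hZ : ∀ z ∈ zs, z < f ∨ (g < z ∧ L < 2 * f + z))
    (hP : (zs.map (prF f)).sum = P)
    (hs : bsearch L f 1 (prF f) fuel (zs ++ List.replicate e f) 0 = false)
    (hν : ¬ TriplePack L (ys : Multiset ℕ) (νY + 1))
    (hlen : ys.length ≤ 3 * νY + e) :
    ¬ TriplePack L ((zs ++ ys : List ℕ) : Multiset ℕ) (νY + P) := by
  classical
  rintro ⟨ts, h1, h2, h3⟩
  rw [← Multiset.coe_add] at h3
  let isY : ℕ → Prop := fun l => f ≤ l ∧ l ≤ g
  let φ : ℕ → ℕ := fun l => if isY l then f else l
  let tsY := ts.filter (fun t => ∀ a ∈ t, isY a)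
  let tsZ := ts.filter (fun t => ¬ ∀ a ∈ t, isY a)
  have hts : tsY + tsZ = ts := Multiset.filter_add_not _ _
  have hjoin : tsY.join + tsZ.join = ts.join := by rw [← Multiset.join_add, hts]
  have hcard : Multiset.card tsY + Multiset.card tsZ = νY + P := by
    rw [← Multiset.card_add, hts, h1]
  -- the two parts of the ground multiset
  have hzsY : (zs : Multiset ℕ).filter isY = 0 := by
    rw [Multiset.filter_eq_nil]
    intro a ha hYa
    have ha' : a ∈ zs := by simpa using ha
    rcases hZ a ha' with h | h
    · exact absurd hYa.1 (by omega)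
    · exact absurd hYa.2 (by omega)
  have hysY : (ys : Multiset ℕ).filter isY = ys := by
    rw [Multiset.filter_eq_self]
    intro a ha
    exact hY a (by simpa using ha)
  have hzsN : (zs : Multiset ℕ).filter (fun l => ¬ isY l) = zs := by
    rw [Multiset.filter_eq_self]
    intro a ha hYa
    have ha' : a ∈ zs := by simpa using ha
    rcases hZ a ha' with h | h
    · exact absurd hYa.1 (by omega)
    · exact absurd hYa.2 (by omega)
  have hysN : (ys : Multiset ℕ).filter (fun l => ¬ isY l) = 0 := by
    rw [Multiset.filter_eq_nil]
    intro a ha hn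
    exact hn (hY a (by simpa using ha))
  have hYjoin : tsY.join.filter isY = tsY.join := by
    rw [Multiset.filter_eq_self]
    intro a ha
    rw [Multiset.mem_join] at ha
    obtain ⟨t, ht, hat⟩ := ha
    exact (Multiset.mem_filter.mp ht).2 a hat
  have hYjoinN : tsY.join.filter (fun l => ¬ isY l) = 0 := by
    rw [Multiset.filter_eq_nil]
    intro a ha hn
    rw [Multiset.mem_join] at ha
    obtain ⟨t, ht, hat⟩ := ha
    exact hn ((Multiset.mem_filter.mp ht).2 a hat)
  have hA : tsY.join + tsZ.join.filter isY ≤ (ys : Multiset ℕ) := by
    have := Multiset.filter_le_filter isY h3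
    rwa [← hjoin, Multiset.filter_add, Multiset.filter_add, hzsY, hysY, hYjoin, zero_add] at this
  have hB : tsZ.join.filter (fun l => ¬ isY l) ≤ (zs : Multiset ℕ) := by
    have := Multiset.filter_le_filter (fun l => ¬ isY l) h3
    rwa [← hjoin, Multiset.filter_add, Multiset.filter_add, hzsN, hysN, hYjoinN, zero_add,
      add_zero] at this
  set s := Multiset.card (tsZ.join.filter isY) with hsdef
  -- the inner part
  have hTY : TriplePack L (ys : Multiset ℕ) (Multiset.card tsY) :=
    ⟨tsY, rfl, fun t ht => h2 t (Multiset.mem_of_mem_filter ht),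
      le_trans (Multiset.le_add_right _ _) hA⟩
  have hcY : 3 * Multiset.card tsY + s ≤ ys.length := by
    have e1 : Multiset.card tsY.join = 3 * Multiset.card tsY := by
      rw [Multiset.card_join]
      have : tsY.map Multiset.card = tsY.map (fun _ => 3) :=
        Multiset.map_congr rfl (fun t ht => (h2 t (Multiset.mem_of_mem_filter ht)).1)
      rw [this, Multiset.map_const', Multiset.sum_replicate, smul_eq_mul, mul_comm]
    have := Multiset.card_le_card hA
    rw [Multiset.card_add, e1, Multiset.coe_card] at this
    exact this
  have hYle : Multiset.card tsY ≤ νY := by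
    by_contra hcon
    exact hν (hTY.mono _ (by omega))
  -- the outer part
  have hφle : ∀ l, φ l ≤ l := by
    intro l
    simp only [φ]
    split_ifs with h
    · exact h.1
    · exact le_rfl
  have hφpr : ∀ l, l < f → prF f (φ l) = 1 := by
    intro l hl
    have : ¬ isY l := fun h => absurd h.1 (by omega)
    simp only [φ, if_neg this, prF, if_pos hl]
  have hmapjoin : (tsZ.map (Multiset.map φ)).join =
      tsZ.join.filter (fun l => ¬ isY l) + Multiset.replicate s f := by
    rw [← Multiset.map_join]
    conv_lhs => rw [← Multiset.filter_add_not isY tsZ.join]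
    rw [Multiset.map_add, add_comm]
    congr 1
    · have : (tsZ.join.filter (fun l => ¬ isY l)).map φ =
          (tsZ.join.filter (fun l => ¬ isY l)).map id :=
        Multiset.map_congr rfl (fun x hx => if_neg (Multiset.mem_filter.mp hx).2)
      rw [this, Multiset.map_id]
    · have : (tsZ.join.filter isY).map φ = (tsZ.join.filter isY).map (fun _ => f) :=
        Multiset.map_congr rfl (fun x hx => if_pos (Multiset.mem_filter.mp hx).2)
      rw [this, Multiset.map_const']
  have hTZ : TriplePackF L f 1 (prF f) ((zs : Multiset ℕ) + Multiset.replicate s f)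
      (Multiset.card tsZ) := by
    refine ⟨tsZ.map (Multiset.map φ), Multiset.card_map _ _, ?_, ?_⟩
    · intro t' ht'
      rw [Multiset.mem_map] at ht'
      obtain ⟨t, ht, rfl⟩ := ht'
      have htts : t ∈ ts := Multiset.mem_of_mem_filter ht
      have hnot := (Multiset.mem_filter.mp ht).2
      push Not at hnot
      obtain ⟨a, ha, hna⟩ := hnot
      have hajoin : a ∈ ts.join := Multiset.mem_join.mpr ⟨t, htts, ha⟩
      have hazs : a ∈ zs := by
        have := Multiset.mem_of_le h3 hajoin
        rw [Multiset.mem_add] at this
        rcases this with h | h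
        · simpa using h
        · exact absurd (hY a (by simpa using h)) hna
      have ht3 := h2 t htts
      obtain ⟨t', rfl⟩ := Multiset.exists_cons_of_mem ha
      have hc2 : Multiset.card t' = 2 := by
        have := ht3.1
        rw [Multiset.card_cons] at this
        omega
      rw [Multiset.card_eq_two] at hc2
      obtain ⟨b, c, rfl⟩ := hc2
      have hsum : a + b + c ≤ L := by
        have := ht3.2
        simp only [Multiset.sum_cons, Multiset.insert_eq_cons, Multiset.sum_singleton] at this
        omega
      have hφa : φ a = a := if_neg hna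
      have hb := hφle b
      have hc := hφle c
      refine ⟨by rw [Multiset.card_map]; exact ht3.1, ?_, ⟨a, ?_, ?_⟩, ?_⟩
      · simp only [Multiset.map_cons, Multiset.sum_cons, Multiset.insert_eq_cons,
          Multiset.map_singleton, Multiset.sum_singleton, hφa]
        omega
      · simp only [Multiset.map_cons, hφa, Multiset.mem_cons, true_or]
      · rintro rfl
        exact hna ⟨le_rfl, hfg⟩
      · simp only [Multiset.map_cons, Multiset.sum_cons, Multiset.insert_eq_cons,
          Multiset.map_singleton, Multiset.sum_singleton, hφa]
        rcases hZ a hazs with h | h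
        · have : prF f a = 1 := by simp only [prF, if_pos h]
          omega
        · rcases Nat.lt_or_ge b f with hbf | hbf
          · have := hφpr b hbf
            omega
          · rcases Nat.lt_or_ge c f with hcf | hcf
            · have := hφpr c hcf
              omega
            · omega
    · rw [hmapjoin]
      exact add_le_add_left hB _
  have hprf : prF f f = 0 := by simp [prF]
  have hsumpr : ∀ k, ((zs ++ List.replicate k f).map (prF f)).sum = P := by
    intro k
    rw [List.map_append, List.sum_append, hP, List.map_replicate, List.sum_replicate, hprf]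
    simp
  have hZle : Multiset.card tsZ ≤ P := by
    have := hTZ.price_le
    rw [← Multiset.coe_replicate, Multiset.coe_add, Multiset.map_coe, Multiset.sum_coe,
      hsumpr] at this
    omega
  rcases Nat.lt_or_ge e s with hse | hse
  · omega
  · have hTZ' : TriplePackF L f 1 (prF f) ((zs ++ List.replicate e f : List ℕ) : Multiset ℕ)
        (Multiset.card tsZ) := by
      obtain ⟨us, u1, u2, u3⟩ := hTZ
      refine ⟨us, u1, u2, le_trans u3 ?_⟩
      rw [← Multiset.coe_add, Multiset.coe_replicate]
      apply add_le_add_right
      rw [Multiset.replicate_le_replicate]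
      exact hse
    have hne : Multiset.card tsZ ≠ P := by
      intro heq
      have := bsearch_complete L f 1 (prF f) fuel _ 0 _ hTZ' (by rw [hsumpr, heq]; omega)
      rw [hs] at this
      exact Bool.false_ne_true this
    omega

/-- lower bound for `OPT` of an instance all of whose sizes exceed `1/4`, from the impossibility of
`ν + 1` disjoint triples that fit into a bin. -/
theorem OPT_ge_of_noPack {L : ℕ} (hL : 0 < L) (ls : List ℕ) (hle : ∀ l ∈ ls, l ≤ L)
    (h4 : ∀ l ∈ ls, L < 4 * l) (ν K : ℕ) (hν : ¬ TriplePack L (ls : Multiset ℕ) (ν + 1))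
    (hK : 2 * K + ν ≤ ls.length + 1) : K ≤ OPT (sizes L ls) := by
  apply le_csInf (OPT_set_nonempty hL ls hle)
  rintro k ⟨f, hf⟩
  obtain ⟨g, hg⟩ := packing_nat hL ls k f hf
  have := bins_lower L ls h4 k g hg ν hν
  omega

theorem noPack_of_search {L : ℕ} (ls : List ℕ) (m : ℕ) (hs : search L ls.length ls m = false) :
    ¬ TriplePack L (ls : Multiset ℕ) m := by
  intro h
  have := search_complete L ls.length ls m le_rfl h
  rw [hs] at this
  exact Bool.false_ne_true this

end Vale.Agent.Lib.P302
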